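import Vale.Agent.P174.Cont

/-!
Abelian groups satisfy Q1: solve the system in an abelian overgroup which is divisible.
-/

namespace Vale.Agent.P174

universe u

section abel

theorem exists_int_right_inverse {m n : ℕ} (A : Matrix (Fin m) (Fin n) ℤ)
    (h : (A.map (fun x : ℤ => (x : ℚ))).rank = m) :
    ∃ (B : Matrix (Fin n) (Fin m) ℤ) (d : ℤ), d ≠ 0 ∧ A * B = d • (1 : Matrix (Fin m) (Fin m) ℤ) := by
  classical
  set A' := A.map (fun x : ℤ => (x : ℚ)) with hA'
  have hsurj : Function.Surjective A'.mulVec := by
    have h1 : LinearMap.range A'.mulVecLin = ⊤ := by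
      apply Submodule.eq_top_of_finrank_eq
      rw [Module.finrank_fin_fun]
      exact h
    intro v
    have : v ∈ LinearMap.range A'.mulVecLin := by rw [h1]; trivial
    obtain ⟨x, hx⟩ := this
    exact ⟨x, hx⟩
  obtain ⟨B', hB'⟩ := Matrix.mulVec_surjective_iff_exists_right_inverse.mp hsurj
  obtain ⟨⟨d, hd⟩, hint⟩ := IsLocalization.exist_integer_multiples_of_finite
    (nonZeroDivisors ℤ) (fun p : Fin n × Fin m => B' p.1 p.2)
  choose B0 hB0 using fun p => hint p
  refine ⟨Matrix.of (fun j i => B0 (j, i)), d, nonZeroDivisors.ne_zero hd, ?_⟩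
  have hcast : Function.Injective (fun x : ℤ => (x : ℚ)) := Int.cast_injective
  ext i k
  apply hcast
  have h2 : ∀ p, ((B0 p : ℤ) : ℚ) = (d : ℚ) * B' p.1 p.2 := by
    intro p
    have := hB0 p
    simpa [Algebra.smul_def] using this
  simp only [Matrix.mul_apply, Matrix.smul_apply, Matrix.of_apply, smul_eq_mul, Int.cast_sum,
    Int.cast_mul, h2]
  have h3 := congrFun (congrFun hB' i) k
  rw [Matrix.mul_apply] at h3
  have h4 : ∑ j, (A i j : ℚ) * ((d : ℚ) * B' j k) = (d : ℚ) * ∑ j, A' i j * B' j k := by
    rw [Finset.mul_sum]
    refine Finset.sum_congr rfl (fun j _ => ?_)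
    simp only [hA', Matrix.map_apply]
    ring
  rw [h4, h3]
  by_cases hik : i = k
  · subst hik; simp
  · simp [Matrix.one_apply_ne hik]

theorem q1_of_comm {G : Type u} [Group G] (hG : ∀ a b : G, a * b = b * a) : Q1 G := by
  classical
  let _ : CommGroup G := { (inferInstance : Group G) with mul_comm := hG }
  intro m n w hrank
  let D : Type u := CharacterModule (Additive G) → AddCircle (1 : ℚ)
  let φ : G →* Multiplicative D :=
    { toFun := fun g => Multiplicative.ofAdd (fun χ => χ (Additive.ofMul g))
      map_one' := by
        apply congrArg Multiplicative.ofAdd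
        funext χ
        simp
        rfl
      map_mul' := by
        intro a b
        apply congrArg Multiplicative.ofAdd
        funext χ
        simp
        rfl }
  have hφ : Function.Injective φ := by
    rw [injective_iff_map_eq_one]
    intro g hg
    by_contra hne
    obtain ⟨χ, hχ⟩ := CharacterModule.exists_character_apply_ne_zero_of_ne_zero
      (a := Additive.ofMul g) (by simpa using hne)
    apply hχ
    have := congrArg (fun f => (Multiplicative.toAdd f) χ) hg
    exact this
  let A : Matrix (Fin m) (Fin n) ℤ := fun i j => Multiplicative.toAdd (expHom G n (w i)) j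
  obtain ⟨B, d, hd, hAB⟩ := exists_int_right_inverse A (by
    have : A.map (fun x : ℤ => (x : ℚ)) = expMatrix w := rfl
    rw [this]; exact hrank)
  let cst : Monoid.Coprod G (FreeGroup (Fin n)) →* Multiplicative D := Monoid.Coprod.lift φ 1
  let y : Fin m → D := fun i χ => DivisibleBy.div (-(Multiplicative.toAdd (cst (w i)) χ)) d
  have hy : ∀ i, d • y i = -(Multiplicative.toAdd (cst (w i))) := by
    intro i
    funext χ
    exact DivisibleBy.div_cancel _ hd
  let x : Fin n → D := fun j => ∑ i, B j i • y i
  refine ⟨Multiplicative D, inferInstance, φ, fun j => Multiplicative.ofAdd (x j), hφ, ?_⟩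
  -- decomposition of the evaluation
  let lin : Multiplicative (Fin n → ℤ) →* Multiplicative D :=
    { toFun := fun v => Multiplicative.ofAdd (∑ j, (Multiplicative.toAdd v) j • x j)
      map_one' := by simp
      map_mul' := by
        intro a b
        rw [← ofAdd_add, ← Finset.sum_add_distrib]
        congr 1
        refine Finset.sum_congr rfl (fun j _ => ?_)
        rw [← add_smul]; rfl }
  have hdec : Monoid.Coprod.lift φ (FreeGroup.lift (fun j => Multiplicative.ofAdd (x j))) =
      cst * (lin.comp (expHom G n)) := by
    apply Monoid.Coprod.hom_ext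
    · ext1 g
      simp [cst, expHom]
    · apply FreeGroup.ext_hom
      intro j
      simp only [MonoidHom.comp_apply, Monoid.Coprod.lift_apply_inr, FreeGroup.lift_apply_of,
        MonoidHom.mul_apply, cst, expHom, MonoidHom.one_apply, one_mul]
      change Multiplicative.ofAdd (x j) =
        Multiplicative.ofAdd (∑ k, (Pi.single j (1 : ℤ) : Fin n → ℤ) k • x k)
      congr 1
      rw [Finset.sum_eq_single j]
      · simp
      · intro b _ hb; simp [Pi.single_eq_of_ne hb]
      · intro h; exact absurd (Finset.mem_univ j) h
  intro i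
  rw [hdec, MonoidHom.mul_apply, MonoidHom.comp_apply]
  have h5 : lin (expHom G n (w i)) = Multiplicative.ofAdd (∑ j, A i j • x j) := rfl
  have h6 : ∑ j, A i j • x j = d • y i := by
    calc ∑ j, A i j • x j = ∑ j, ∑ k, (A i j * B j k) • y k := by
          refine Finset.sum_congr rfl (fun j _ => ?_)
          rw [Finset.smul_sum]
          refine Finset.sum_congr rfl (fun k _ => ?_)
          rw [mul_smul]
      _ = ∑ k, (∑ j, A i j * B j k) • y k := by
          rw [Finset.sum_comm]
          refine Finset.sum_congr rfl (fun k _ => ?_)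
          rw [Finset.sum_smul]
      _ = ∑ k, ((d • (1 : Matrix (Fin m) (Fin m) ℤ)) i k) • y k := by
          refine Finset.sum_congr rfl (fun k _ => ?_)
          rw [← hAB, Matrix.mul_apply]
      _ = d • y i := by
          rw [Finset.sum_eq_single i]
          · simp
          · intro b _ hb; simp [Matrix.one_apply_ne (Ne.symm hb)]
          · intro h; exact absurd (Finset.mem_univ i) h
  rw [h5, h6, hy]
  apply Multiplicative.toAdd.injective
  rw [toAdd_mul, toAdd_ofAdd, toAdd_one, add_neg_cancel]

end abel

end Vale.Agent.P174
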