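import Vale.Agent.P174.Final

/-!
Systems whose content (the words with the coefficients deleted) has a covering with vanishing
second homology.
-/

namespace Vale.Agent.P174

universe u

section cont

/-- The content of an element of `G * F(J)`: the coefficients are deleted. -/
def content {G : Type u} [Group G] {J : Type*} : Monoid.Coprod G (FreeGroup J) →* FreeGroup J :=
  Monoid.Coprod.lift 1 (MonoidHom.id (FreeGroup J))

/-- The label of the edge `(ω, j)` for counting passages. -/
noncomputable def edgeConn (K : Type) [Field K] {J Ω : Type*} (ω : Ω) (j : J) :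
    Multiplicative ((Ω × J) →₀ K) :=
  Multiplicative.ofAdd (Finsupp.single (ω, j) 1)

/-- The algebraic numbers of passages of the path with label `x` that starts at `ω` through the
edges `(ω', j)`, from `ω'` to `σ j ω'`. -/
noncomputable def edgeVec (K : Type) [Field K] {J Ω : Type*} (σ : J → Equiv.Perm Ω)
    (x : FreeGroup J) (ω : Ω) : (Ω × J) →₀ K :=
  Multiplicative.toAdd (hol σ (edgeConn K) x ω)

theorem hol_comp {S S' Ω M : Type*} [Group M] (σ : S → Equiv.Perm Ω) (m : Ω → S → M)
    (σ' : S' → Equiv.Perm Ω) (m' : Ω → S' → M) (f : FreeGroup S' →* FreeGroup S)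
    (hσ : ∀ s, σ' s = FreeGroup.lift σ (f (FreeGroup.of s)))
    (hm : ∀ ω s, m' ω s = hol σ m (f (FreeGroup.of s)) ω) (x : FreeGroup S') (ω : Ω) :
    FreeGroup.lift σ' x = FreeGroup.lift σ (f x) ∧ hol σ' m' x ω = hol σ m (f x) ω := by
  have h1 : ∀ x, FreeGroup.lift σ' x = FreeGroup.lift σ (f x) := by
    intro x
    have : FreeGroup.lift σ' = (FreeGroup.lift σ).comp f := by
      apply FreeGroup.ext_hom
      intro s
      rw [FreeGroup.lift_apply_of, hσ]; rfl
    rw [this]; rfl
  refine ⟨h1 x, ?_⟩
  induction x using FreeGroup.induction_on generalizing ω with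
  | C1 => simp
  | of s => rw [hol_of, hm]
  | inv_of s ih => rw [hol_inv, map_inv, hol_inv, ih, h1]
  | mul x y hx hy => rw [hol_mul, map_mul, hol_mul, hx, hy, h1]

variable {G J I : Type u} [Group G] {K : Type} [Field K]

/-- The initial stage given by a covering of the content. -/
noncomputable def Stage.initCover (w : I → FreeGroup (G ⊕ J))
    (T : Set (FreeGroup (G ⊕ J) × G × G)) (Ω : Type u) (σ : J → Equiv.Perm Ω) (pt : Ω)
    (h1 : ∀ i, FreeGroup.lift σ (content (proj G J (w i))) = 1)
    (h2 : LinearIndependent K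
      (fun p : Ω × I => edgeVec K σ (content (proj G J (w p.2))) p.1)) :
    Stage K w T where
  Ω := Ω
  σ := Sum.elim (fun _ => 1) σ
  pt := pt
  hI i := by
    have := (hol_comp σ (edgeConn K) (Sum.elim (fun _ : G => 1) σ) (foxConn K)
      (content.comp (proj G J)) (by rintro (g | j) <;> simp [content, proj])
      (by rintro ω (g | j) <;> simp [content, proj, foxConn, edgeConn]) (w i) pt).1
    rw [this]
    exact h1 i
  hT t _ := by
    have : FreeGroup.lift (Sum.elim (fun _ : G => (1 : Equiv.Perm Ω)) σ) (tri t.2.1 t.2.2) = 1 := by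
      simp [tri]
    rw [this]; rfl
  hli := by
    have : (fun p : Ω × I => fox K (Sum.elim (fun _ : G => 1) σ) (w p.2) p.1) =
        (fun p : Ω × I => edgeVec K σ (content (proj G J (w p.2))) p.1) := by
      funext p
      have := (hol_comp σ (edgeConn K) (Sum.elim (fun _ : G => 1) σ) (foxConn K)
        (content.comp (proj G J)) (by rintro (g | j) <;> simp [content, proj])
        (by rintro ω (g | j) <;> simp [content, proj, foxConn, edgeConn]) (w p.2) p.1).2
      unfold fox edgeVec
      rw [this]; rfl
    rw [this]; exact h2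

theorem inf_of_cover
    (hyp : ∀ H : Subgroup G, H.FG → (∀ θ : H →* Multiplicative K, θ = 1) → HowieInf K H)
    (w : I → Monoid.Coprod G (FreeGroup J)) (Ω : Type u) (σ : J → Equiv.Perm Ω) (pt : Ω)
    (h1 : ∀ i, FreeGroup.lift σ (content (w i)) = 1)
    (h2 : LinearIndependent K (fun p : Ω × I => edgeVec K σ (content (w p.2)) p.1))
    (g0 : G) (hg0 : Monoid.Coprod.inl g0 ∈ Subgroup.normalClosure (Set.range w)) : g0 = 1 := by
  choose w' hw' using fun i => proj_surjective (w i)
  have e : w = fun i => proj G J (w' i) := by funext i; rw [hw']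
  subst e
  obtain ⟨T, hT⟩ := exists_finite w' _ (lift_to_free w' g0 hg0)
  exact tower_main T g0 (Stage.initCover w' T Ω σ pt h1 h2) hyp hT

/-- The coefficient-free complex of the system has a covering (with fibre `Ω`) whose second
homology with coefficients in `K` vanishes: the contents act trivially on `Ω` and the edge
vectors of their lifts are linearly independent. -/
def HasAcyclicCover (K : Type) [Field K] {G : Type u} [Group G] {m n : ℕ}
    (w : Fin m → Monoid.Coprod G (FreeGroup (Fin n))) : Prop :=
  ∃ (Ω : Type u) (_ : Nonempty Ω) (σ : Fin n → Equiv.Perm Ω),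
    (∀ i, FreeGroup.lift σ (content (w i)) = 1) ∧
    LinearIndependent K (fun p : Ω × Fin m => edgeVec K σ (content (w p.2)) p.1)

theorem solvable_of_cover {m n : ℕ} (w : Fin m → Monoid.Coprod G (FreeGroup (Fin n)))
    (hyp : ∀ H : Subgroup G, H.FG → (∀ θ : H →* Multiplicative K, θ = 1) → HowieFin K H)
    (hc : HasAcyclicCover K w) : SolvableOver w := by
  classical
  obtain ⟨Ω, ⟨pt⟩, σ, h1, h2⟩ := hc
  let up : Monoid.Coprod G (FreeGroup (Fin n)) →* Monoid.Coprod G (FreeGroup (ULift.{u} (Fin n))) :=
    Monoid.Coprod.lift Monoid.Coprod.inl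
      (FreeGroup.lift (fun j => Monoid.Coprod.inr (FreeGroup.of (ULift.up j))))
  let w' : ULift.{u} (Fin m) → Monoid.Coprod G (FreeGroup (ULift.{u} (Fin n))) :=
    fun i => up (w i.down)
  let σ' : ULift.{u} (Fin n) → Equiv.Perm Ω := fun j => σ j.down
  let f : FreeGroup (Fin n) →* FreeGroup (ULift.{u} (Fin n)) := FreeGroup.map ULift.up
  have hcont : ∀ x, content (up x) = f (content x) := by
    intro x
    have : (content).comp up = f.comp content := by
      apply Monoid.Coprod.hom_ext
      · ext g; simp [up, content]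
      · apply FreeGroup.ext_hom; intro j; simp [up, content, f]
    exact congrArg (fun f => f x) this
  let e : (Ω × Fin n) → (Ω × ULift.{u} (Fin n)) := fun p => (p.1, ULift.up p.2)
  have he : Function.Injective e := by
    rintro ⟨a, b⟩ ⟨c, d⟩ h
    simp only [e, Prod.mk.injEq, ULift.up.injEq] at h
    rw [h.1, h.2]
  -- compare holonomies
  have hcmp : ∀ x ω, FreeGroup.lift σ x = FreeGroup.lift σ' (f x) ∧
      Finsupp.mapDomain e (edgeVec K σ x ω) = edgeVec K σ' (f x) ω := by
    intro x ω
    have hm := hol_map σ (edgeConn (J := Fin n) K) (AddMonoidHom.toMultiplicative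
      (Finsupp.mapDomain.addMonoidHom (M := K) e)) x ω
    have hc := hol_comp σ' (edgeConn K) σ (fun (ω : Ω) (s : Fin n) =>
      (AddMonoidHom.toMultiplicative (Finsupp.mapDomain.addMonoidHom (M := K) e))
        (edgeConn (J := Fin n) K ω s)) f (by intro s; simp [f, σ'])
      (by intro ω s; simp [f, edgeConn, e]) x ω
    refine ⟨hc.1, ?_⟩
    rw [hc.2] at hm
    exact congrArg Multiplicative.toAdd hm
  have h1' : ∀ i, FreeGroup.lift σ' (content (w' i)) = 1 := by
    intro i
    simp only [w']
    rw [hcont, ← (hcmp _ pt).1]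
    exact h1 i.down
  have h2' : LinearIndependent K
      (fun p : Ω × ULift.{u} (Fin m) => edgeVec K σ' (content (w' p.2)) p.1) := by
    have h3 : LinearIndependent K (fun p : Ω × Fin m =>
        Finsupp.lmapDomain K K e (edgeVec K σ (content (w p.2)) p.1)) := by
      refine h2.map' _ ?_
      rw [LinearMap.ker_eq_bot]
      exact Finsupp.mapDomain_injective he
    have h4 := h3.comp (fun p : Ω × ULift.{u} (Fin m) => (p.1, p.2.down)) (by
      rintro ⟨a, ⟨b⟩⟩ ⟨c, ⟨d⟩⟩ h
      simp only [Prod.mk.injEq] at h
      rw [h.1, h.2])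
    convert h4 using 1
    funext p
    simp only [Function.comp, Finsupp.lmapDomain_apply, w']
    rw [hcont, (hcmp _ p.1).2]
  have hinj : ∀ g : G, Monoid.Coprod.inl g ∈ Subgroup.normalClosure (Set.range w') → g = 1 :=
    fun g hg => inf_of_cover (fun H hH1 hH2 => inf_of_fin (hyp H hH1 hH2)) w' Ω σ' pt h1' h2' g hg
  let q := QuotientGroup.mk' (Subgroup.normalClosure (Set.range w'))
  refine ⟨Monoid.Coprod G (FreeGroup (ULift.{u} (Fin n))) ⧸ Subgroup.normalClosure (Set.range w'),
    inferInstance, q.comp Monoid.Coprod.inl,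
    fun j => q (Monoid.Coprod.inr (FreeGroup.of (ULift.up j))), ?_, ?_⟩
  · rw [injective_iff_map_eq_one]
    intro g hg
    apply hinj
    simpa only [q, MonoidHom.comp_apply, QuotientGroup.mk'_apply, QuotientGroup.eq_one_iff] using hg
  · intro i
    have h4 : Monoid.Coprod.lift (q.comp Monoid.Coprod.inl) (FreeGroup.lift
        (fun j => q (Monoid.Coprod.inr (FreeGroup.of (ULift.up j))))) = q.comp up := by
      apply Monoid.Coprod.hom_ext
      · ext g; simp [up]
      · apply FreeGroup.ext_hom
        intro j
        simp [up]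
    rw [h4, MonoidHom.comp_apply]
    simp only [q, QuotientGroup.mk'_apply, QuotientGroup.eq_one_iff]
    exact Subgroup.subset_normalClosure ⟨ULift.up i, rfl⟩

end cont

end Vale.Agent.P174
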