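import Vale.Agent.P174.Hol

/-!
Linear independence of the rows is inherited by the covers with group `(K, +)`.
-/

namespace Vale.Agent.P174

open Polynomial

section abstract

variable {K : Type*} [Field K] {X Y : Type*}

theorem per_x (y : (Y × K) →₀ K) (lx : K →₀ K) (f : K → K) (c0 : K)
    (h : ∀ a, lx.sum (fun k c => c * f (a + k)) = c0) :
    lx.sum (fun k c => c • y.sum (fun q d => Finsupp.single q.1 (d * f (q.2 + k)))) =
      c0 • Finsupp.mapDomain Prod.fst y := by
  classical
  have h1 : lx.sum (fun k c => c • y.sum (fun q d => Finsupp.single q.1 (d * f (q.2 + k)))) =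
      y.sum (fun q d => Finsupp.single q.1 (d * lx.sum (fun k c => c * f (q.2 + k)))) := by
    simp only [Finsupp.sum, Finset.smul_sum, Finsupp.smul_single, smul_eq_mul]
    rw [Finset.sum_comm]
    refine Finset.sum_congr rfl (fun q _ => ?_)
    rw [← Finsupp.single_finsetSum, Finset.mul_sum]
    congr 1
    refine Finset.sum_congr rfl (fun k _ => ?_)
    ring
  rw [h1]
  simp only [h]
  rw [Finsupp.mapDomain, Finsupp.smul_sum]
  refine Finsupp.sum_congr (fun q _ => ?_)
  rw [Finsupp.smul_single, smul_eq_mul, mul_comm]

theorem mom_zero (lx : K →₀ K) (h : ∀ p : K[X], lx.sum (fun k c => c * p.eval k) = 0) :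
    lx = 0 := by
  classical
  by_contra hne
  obtain ⟨k0, hk0⟩ := Finsupp.support_nonempty_iff.mpr hne
  have h1 := h (∏ k ∈ lx.support.erase k0, (Polynomial.X - Polynomial.C k))
  rw [Finsupp.sum, Finset.sum_eq_single k0] at h1
  · rw [Polynomial.eval_prod] at h1
    have h2 : lx k0 ≠ 0 := Finsupp.mem_support_iff.mp hk0
    have h3 : ∏ j ∈ lx.support.erase k0, eval k0 (Polynomial.X - Polynomial.C j) ≠ 0 := by
      rw [Finset.prod_ne_zero_iff]
      intro j hj
      have := Finset.ne_of_mem_erase hj
      simp [sub_eq_zero, this.symm]
    exact (mul_ne_zero h2 h3) h1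
  · intro b hb hne
    rw [Polynomial.eval_prod, Finset.prod_eq_zero (i := b)]
    · simp
    · exact Finset.mem_erase.mpr ⟨hne, hb⟩
    · simp
  · intro h; exact absurd hk0 h

theorem linInd_cover (y : X → (Y × K) →₀ K)
    (h : LinearIndependent K (fun x => (Finsupp.mapDomain Prod.fst (y x) : Y →₀ K))) :
    LinearIndependent K (fun p : X × K =>
      Finsupp.mapDomain (fun q : Y × K => (q.1, q.2 + p.2)) (y p.1)) := by
  classical
  rw [linearIndependent_iff]
  intro l hl
  have key : ∀ n : ℕ, ∀ p : K[X], p.degree < n → ∀ x : X,
      (l.curry x).sum (fun k c => c * p.eval k) = 0 := by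
    intro n
    induction n with
    | zero =>
      intro p hp x
      have : p = 0 := by
        rw [← Polynomial.degree_eq_bot]
        have : p.degree < 0 := by simpa using hp
        exact Nat.WithBot.lt_zero_iff.mp this
      simp [this]
    | succ n ih =>
      intro p hp
      by_cases hp0 : p = 0
      · intro x; simp [hp0]
      have hx : ∀ x : X, ∀ a : K, (l.curry x).sum (fun k c => c * p.eval (a + k)) =
          (l.curry x).sum (fun k c => c * p.eval k) := by
        intro x a
        have hdeg : (Polynomial.taylor a p - p).degree < (n : WithBot ℕ) := by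
          have h1 : (Polynomial.taylor a p).degree = p.degree := by
            rw [Polynomial.degree_eq_natDegree hp0, Polynomial.degree_eq_natDegree,
              Polynomial.natDegree_taylor]
            intro h0
            exact hp0 ((Polynomial.taylor_injective a) (by simpa using h0))
          have h2 : (Polynomial.taylor a p).leadingCoeff = p.leadingCoeff := by
            simp
          have hne : Polynomial.taylor a p ≠ 0 := by
            intro h0
            exact hp0 ((Polynomial.taylor_injective a) (by simpa using h0))
          have h3 := Polynomial.degree_sub_lt_left h1 hne h2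
          rw [h1] at h3
          have h4 : p.degree ≤ (n : WithBot ℕ) := by
            have : p.degree < ((n + 1 : ℕ) : WithBot ℕ) := hp
            rw [Polynomial.degree_eq_natDegree hp0] at this ⊢
            exact_mod_cast Nat.lt_succ_iff.mp (by exact_mod_cast this)
          exact lt_of_lt_of_le h3 h4
        have h5 := ih _ hdeg x
        have h6 : (l.curry x).sum (fun k c => c * p.eval (a + k)) =
            (l.curry x).sum (fun k c => c * (Polynomial.taylor a p).eval k) := by
          refine Finsupp.sum_congr (fun k _ => ?_)
          rw [Polynomial.taylor_eval, add_comm]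
        rw [h6]
        have h7 : (l.curry x).sum (fun k c => c * (Polynomial.taylor a p - p).eval k) =
            (l.curry x).sum (fun k c => c * (Polynomial.taylor a p).eval k) -
              (l.curry x).sum (fun k c => c * p.eval k) := by
          rw [Finsupp.sum, Finsupp.sum, Finsupp.sum, ← Finset.sum_sub_distrib]
          refine Finset.sum_congr rfl (fun k _ => ?_)
          rw [Polynomial.eval_sub]; ring
        rw [h7] at h5
        exact sub_eq_zero.mp h5
      -- apply the moment map
      have h8 : l.curry.sum (fun x lx => (lx.sum (fun k c => c * p.eval k)) •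
          (Finsupp.mapDomain Prod.fst (y x) : Y →₀ K)) = 0 := by
        rw [Finsupp.linearCombination_apply] at hl
        have h9 := congrArg (Finsupp.linearCombination K
          (fun q : Y × K => (Finsupp.single q.1 (p.eval q.2) : Y →₀ K))) hl
        rw [map_zero, map_finsuppSum] at h9
        rw [← h9]
        rw [← Finsupp.sum_curry_index l (fun x k c => (Finsupp.linearCombination K
          (fun q : Y × K => (Finsupp.single q.1 (p.eval q.2) : Y →₀ K)))
            (c • Finsupp.mapDomain (fun q : Y × K => (q.1, q.2 + k)) (y x)))]
        · refine Finsupp.sum_congr (fun x _ => ?_)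
          have h10 := per_x (y x) (l.curry x) (fun k => p.eval k)
            ((l.curry x).sum (fun k c => c * p.eval k)) (hx x)
          rw [← h10]
          refine Finsupp.sum_congr (fun k _ => ?_)
          rw [map_smul]
          congr 1
          rw [Finsupp.linearCombination_mapDomain, Finsupp.linearCombination_apply]
          refine Finsupp.sum_congr (fun q _ => ?_)
          simp
      rw [linearIndependent_iff'] at h
      intro x
      by_cases hxs : x ∈ l.curry.support
      · exact h l.curry.support (fun x => (l.curry x).sum (fun k c => c * p.eval k)) h8 x hxs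
      · rw [Finsupp.notMem_support_iff.mp hxs]; simp
  have h11 : l.curry = 0 := by
    ext1 x
    refine mom_zero _ (fun p => ?_)
    exact key (p.natDegree + 1) p
      (lt_of_le_of_lt Polynomial.degree_le_natDegree (by exact_mod_cast Nat.lt_succ_self _)) x
  ext ⟨x, k⟩
  have : l.curry x k = 0 := by rw [h11]; rfl
  simpa using this

end abstract

section concrete

variable {G J Ω I K : Type*} [Field K]

theorem fox_cover (σ : (G ⊕ J) → Equiv.Perm Ω) (α : Ω → (G ⊕ J) → Multiplicative K)
    (w : I → FreeGroup (G ⊕ J))
    (h : LinearIndependent K (fun p : Ω × I => fox K σ (w p.2) p.1)) :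
    LinearIndependent K (fun p : (Ω × Multiplicative K) × I =>
      fox K (skew σ α) (w p.2) p.1) := by
  classical
  let e : ((Ω × Multiplicative K) × J) → (Ω × J) × K := fun q => ((q.1.1, q.2), q.1.2.toAdd)
  let y : Ω × I → ((Ω × J) × K) →₀ K := fun p =>
    Finsupp.mapDomain e (fox K (skew σ α) (w p.2) (p.1, 1))
  have h1 : LinearIndependent K (fun x => (Finsupp.mapDomain Prod.fst (y x) : (Ω × J) →₀ K)) := by
    have : (fun x => (Finsupp.mapDomain Prod.fst (y x) : (Ω × J) →₀ K)) =
        (fun p : Ω × I => fox K σ (w p.2) p.1) := by
      funext p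
      simp only [y]
      rw [← Finsupp.mapDomain_comp]
      have := fox_equivariant K (skew σ α) σ Prod.fst (fun s ω' => rfl) (w p.2) (p.1, 1)
      rw [← this]
      rfl
    rw [this]
    exact h
  have h2 := linInd_cover y h1
  have h3 := h2.comp (fun p : (Ω × Multiplicative K) × I => ((p.1.1, p.2), p.1.2.toAdd))
    (by
      rintro ⟨⟨ω, k⟩, i⟩ ⟨⟨ω', k'⟩, i'⟩ hh
      simp only [Prod.mk.injEq] at hh
      obtain ⟨⟨rfl, rfl⟩, hk⟩ := hh
      have : k = k' := hk
      rw [this])
  refine LinearIndependent.of_comp (Finsupp.lmapDomain K K e) ?_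
  convert h3 using 1
  funext p
  simp only [Function.comp, y, Finsupp.lmapDomain_apply]
  have hq := fox_equivariant K (skew σ α) (skew σ α)
    (fun q : Ω × Multiplicative K => (q.1, q.2 * p.1.2))
    (fun s ω' => by simp [mul_assoc]) (w p.2) (p.1.1, 1)
  rw [one_mul] at hq
  have hp : ((p.1.1, p.1.2) : Ω × Multiplicative K) = p.1 := rfl
  rw [hp] at hq
  rw [← hq, ← Finsupp.mapDomain_comp, ← Finsupp.mapDomain_comp]
  rfl

end concrete

end Vale.Agent.P174
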