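import Mathlib

/-!
Systems of equations over a group `G` with unknowns `x_j`, `j ∈ κ`.
-/

namespace Vale.Agent.P174

universe u v w

/-- The value of a letter: a coefficient `g ∈ G` is sent to `φ g`, the letter `(j, true)` to the
value `x j` of the unknown `x_j`, the letter `(j, false)` to `(x j)⁻¹`. -/
def letterVal {G : Type u} {κ : Type v} {H : Type w} [Group G] [Group H]
    (φ : G →* H) (x : κ → H) : G ⊕ (κ × Bool) → H
  | Sum.inl g => φ g
  | Sum.inr (j, true) => x j
  | Sum.inr (j, false) => (x j)⁻¹

/-- The value of a word: the product of the values of its letters. -/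
def wordVal {G : Type u} {κ : Type v} {H : Type w} [Group G] [Group H]
    (φ : G →* H) (x : κ → H) (l : List (G ⊕ (κ × Bool))) : H :=
  (l.map (letterVal φ x)).prod

/-- The element of `G * F_n` spelled by a word in elements of `G` and letters `x_j^{±1}`. -/
def element {G : Type u} [Group G] {n : ℕ} (l : List (G ⊕ (Fin n × Bool))) :
    Monoid.Coprod G (FreeGroup (Fin n)) :=
  wordVal Monoid.Coprod.inl (fun j => Monoid.Coprod.inr (FreeGroup.of j)) l

/-- The list of the letters `x_j^{±1}` of a word (coefficients are dropped). -/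
def unknownLetters {G : Type u} {κ : Type v} (l : List (G ⊕ (κ × Bool))) : List (κ × Bool) :=
  l.filterMap Sum.getRight?

/-- The number of occurrences of the unknown `x_j` (with either sign) in a word. -/
def occ {G : Type u} {κ : Type v} [DecidableEq κ] (j : κ) (l : List (G ⊕ (κ × Bool))) : ℕ :=
  ((unknownLetters l).filter (fun p => p.1 = j)).length

/-- A finite system `w_1, …, w_m ∈ G * F_n` is solvable over `G`: there are a group `H`, an
injective homomorphism `φ : G → H` and `h_1, …, h_n ∈ H` at which every `w_i` evaluates to `1`. -/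
def SolvableOver {G : Type u} [Group G] {m n : ℕ}
    (w : Fin m → Monoid.Coprod G (FreeGroup (Fin n))) : Prop :=
  ∃ (H : Type u) (_ : Group H) (φ : G →* H) (h : Fin n → H),
    Function.Injective φ ∧ ∀ i, Monoid.Coprod.lift φ (FreeGroup.lift h) (w i) = 1

/-- The homomorphism `G * F_n → ℤ^n` that kills `G` and sends `x_j` to the basis vector `e_j`. -/
def expHom (G : Type u) [Group G] (n : ℕ) :
    Monoid.Coprod G (FreeGroup (Fin n)) →* Multiplicative (Fin n → ℤ) :=
  Monoid.Coprod.lift 1 (FreeGroup.lift (fun j => Multiplicative.ofAdd (Pi.single j (1 : ℤ))))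

/-- The exponent-sum matrix of a system, with rational entries. -/
def expMatrix {G : Type u} [Group G] {m n : ℕ}
    (w : Fin m → Monoid.Coprod G (FreeGroup (Fin n))) : Matrix (Fin m) (Fin n) ℚ :=
  fun i j => ((Multiplicative.toAdd (expHom G n (w i)) j : ℤ) : ℚ)

end Vale.Agent.P174
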