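import Vale.Agent.P174.Inf
import Vale.Agent.P174.Defs

namespace Vale.Agent.P174

universe u

section fin

/-- The exponent-sum matrix of a system with entries in a field `K`. -/
def expMatrixOver (K : Type) [Field K] {G : Type u} [Group G] {m n : ℕ}
    (w : Fin m → Monoid.Coprod G (FreeGroup (Fin n))) : Matrix (Fin m) (Fin n) K :=
  fun i j => ((Multiplicative.toAdd (expHom G n (w i)) j : ℤ) : K)

/-- Every finite system over `G` whose exponent-sum matrix has independent rows over `K` is
solvable over `G`. -/
def HowieFin (K : Type) [Field K] (G : Type u) [Group G] : Prop :=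
  ∀ (m n : ℕ) (w : Fin m → Monoid.Coprod G (FreeGroup (Fin n))),
    (expMatrixOver K w).rank = m → SolvableOver w

variable {G : Type u} [Group G] {K : Type} [Field K]

/-- evaluation of a finitely supported function as a homomorphism -/
noncomputable def evalHom (K : Type) [Field K] {J : Type u} (j : J) :
    Multiplicative (J →₀ K) →* Multiplicative K :=
  AddMonoidHom.toMultiplicative (Finsupp.applyAddHom j)

theorem evalHom_apply {J : Type u} (j : J) (x : Multiplicative (J →₀ K)) :
    (evalHom K j x).toAdd = x.toAdd j := rfl

/-- evaluation of the exponent vector -/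
def evalHomFin (K : Type) [Field K] {n : ℕ} (j : Fin n) :
    Multiplicative (Fin n → ℤ) →* Multiplicative K :=
  AddMonoidHom.toMultiplicative ((Int.castAddHom K).comp (Pi.evalAddMonoidHom (fun _ => ℤ) j))

theorem evalHomFin_apply {n : ℕ} (j : Fin n) (x : Multiplicative (Fin n → ℤ)) :
    (evalHomFin K j x).toAdd = ((x.toAdd j : ℤ) : K) := rfl

theorem rank_eq_of_linInd {m n : ℕ} (A : Matrix (Fin m) (Fin n) K)
    (h : LinearIndependent K A.row) : A.rank = m := by
  have := LinearIndependent.rank_matrix (M := A) h
  simpa using this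

theorem linInd_of_rank_eq {m n : ℕ} (A : Matrix (Fin m) (Fin n) K) (h : A.rank = m) :
    LinearIndependent K A.row := by
  rw [Matrix.rank_eq_finrank_span_row] at h
  rw [linearIndependent_iff_card_eq_finrank_span]
  simp only [Fintype.card_fin]
  exact h.symm

theorem inf_of_fin (h : HowieFin K G) : HowieInf K G := by
  classical
  intro I J w hli g hg
  -- finitely many equations
  have hfin : ∀ x ∈ Subgroup.normalClosure (Set.range w), ∃ I0 : Finset I,
      x ∈ Subgroup.normalClosure (w '' (I0 : Set I)) := by
    intro x hx
    unfold Subgroup.normalClosure at hx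
    induction hx using Subgroup.closure_induction with
    | mem x hx =>
      rw [Group.mem_conjugatesOfSet_iff] at hx
      obtain ⟨a, ⟨i, rfl⟩, hax⟩ := hx
      refine ⟨{i}, ?_⟩
      apply Subgroup.subset_closure
      rw [Group.mem_conjugatesOfSet_iff]
      exact ⟨w i, ⟨i, by simp, rfl⟩, hax⟩
    | one => exact ⟨∅, Subgroup.one_mem _⟩
    | mul a b _ _ iha ihb =>
      obtain ⟨T1, h1⟩ := iha
      obtain ⟨T2, h2⟩ := ihb
      refine ⟨T1 ∪ T2, Subgroup.mul_mem _ (Subgroup.normalClosure_mono ?_ h1)
        (Subgroup.normalClosure_mono ?_ h2)⟩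
      · apply Set.image_mono; intro i hi; simp only [Finset.coe_union]; exact Or.inl hi
      · apply Set.image_mono; intro i hi; simp only [Finset.coe_union]; exact Or.inr hi
    | inv a _ iha =>
      obtain ⟨T1, h1⟩ := iha
      exact ⟨T1, Subgroup.inv_mem _ h1⟩
  obtain ⟨I0, hI0⟩ := hfin _ hg
  let J0 : Finset J := I0.biUnion (fun i => (rowHom K G J (w i)).toAdd.support)
  let eI : Fin I0.card ≃ I0 := I0.equivFin.symm
  let eJ : J0 ≃ Fin J0.card := J0.equivFin
  let ρ : Monoid.Coprod G (FreeGroup J) →* Monoid.Coprod G (FreeGroup (Fin J0.card)) :=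
    Monoid.Coprod.lift Monoid.Coprod.inl (FreeGroup.lift (fun j => if h : j ∈ J0 then
      Monoid.Coprod.inr (FreeGroup.of (eJ ⟨j, h⟩)) else 1))
  let w' : Fin I0.card → Monoid.Coprod G (FreeGroup (Fin J0.card)) := fun a => ρ (w (eI a))
  have hρ : ∀ b : Fin J0.card, ∀ x, ((Multiplicative.toAdd (expHom G J0.card (ρ x)) b : ℤ) : K) =
      (rowHom K G J x).toAdd (eJ.symm b) := by
    intro b x
    have h1 : ((evalHomFin K b).comp (expHom G J0.card)).comp ρ =
        (evalHom K ((eJ.symm b : J0) : J)).comp (rowHom K G J) := by
      apply Monoid.Coprod.hom_ext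
      · ext g'
        simp [ρ, expHom, rowHom]
      · apply FreeGroup.ext_hom
        intro j
        apply Multiplicative.toAdd.injective
        by_cases hj : j ∈ J0
        · simp only [MonoidHom.comp_apply, ρ, Monoid.Coprod.lift_apply_inr,
            FreeGroup.lift_apply_of, dif_pos hj, expHom, rowHom, evalHomFin_apply, evalHom_apply,
            toAdd_ofAdd]
          by_cases hb : eJ ⟨j, hj⟩ = b
          · subst hb
            simp
          · have hb' : (eJ.symm b : J) ≠ j := by
              intro h; apply hb
              have : eJ.symm b = ⟨j, hj⟩ := Subtype.ext h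
              rw [← this]; simp
            rw [Finsupp.single_eq_of_ne hb', Pi.single_eq_of_ne (Ne.symm hb)]
            simp
        · simp only [MonoidHom.comp_apply, ρ, Monoid.Coprod.lift_apply_inr,
            FreeGroup.lift_apply_of, dif_neg hj, expHom, rowHom, evalHomFin_apply, evalHom_apply,
            toAdd_ofAdd, map_one, toAdd_one, Pi.zero_apply, Int.cast_zero]
          rw [Finsupp.single_eq_of_ne]
          intro h; apply hj; rw [← h]; exact (eJ.symm b).2
    have h2 := congrArg (fun f => (f x).toAdd) h1
    exact h2
  have hli' : LinearIndependent K (expMatrixOver K w').row := by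
    rw [Fintype.linearIndependent_iff]
    intro c hc
    have hli2 : LinearIndependent K (fun a : Fin I0.card => (rowHom K G J (w (eI a))).toAdd) :=
      hli.comp (fun a : Fin I0.card => ((eI a : I0) : I))
        (fun a b hab => eI.injective (Subtype.ext hab))
    rw [Fintype.linearIndependent_iff] at hli2
    apply hli2
    ext j
    by_cases hj : j ∈ J0
    · have h3 := congrFun hc (eJ ⟨j, hj⟩)
      simp only [Finset.sum_apply, Pi.smul_apply, Pi.zero_apply, smul_eq_mul] at h3
      rw [Finsupp.finset_sum_apply]
      simp only [Finsupp.smul_apply, smul_eq_mul, Finsupp.zero_apply]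
      rw [← h3]
      refine Finset.sum_congr rfl (fun a _ => ?_)
      have := hρ (eJ ⟨j, hj⟩) (w (eI a))
      simp only [expMatrixOver, w', Matrix.row]
      rw [this]
      simp
    · rw [Finsupp.finset_sum_apply]
      simp only [Finsupp.smul_apply, smul_eq_mul, Finsupp.zero_apply]
      apply Finset.sum_eq_zero
      intro a _
      have : (rowHom K G J (w (eI a))).toAdd j = 0 := by
        by_contra hne
        apply hj
        simp only [J0, Finset.mem_biUnion]
        exact ⟨eI a, (eI a).2, Finsupp.mem_support_iff.mpr hne⟩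
      rw [this, mul_zero]
  obtain ⟨H, _, φ, hh, hφ, hsol⟩ := h _ _ w' (rank_eq_of_linInd _ hli')
  let F : Monoid.Coprod G (FreeGroup J) →* H := (Monoid.Coprod.lift φ (FreeGroup.lift hh)).comp ρ
  have hker : Subgroup.normalClosure (w '' (I0 : Set I)) ≤ F.ker := by
    apply Subgroup.normalClosure_le_normal
    rintro _ ⟨i, hi, rfl⟩
    simp only [SetLike.mem_coe, MonoidHom.mem_ker]
    have := hsol (eI.symm ⟨i, hi⟩)
    simp only [w', Equiv.apply_symm_apply] at this
    exact this
  have h5 := hker hI0
  rw [MonoidHom.mem_ker] at h5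
  have h6 : φ g = 1 := by
    rw [← h5]; simp [F, ρ]
  exact hφ (by rw [h6, map_one])

theorem fin_of_inf (h : HowieInf K G) : HowieFin K G := by
  classical
  intro m n w hrank
  have hli := linInd_of_rank_eq _ hrank
  let up : Monoid.Coprod G (FreeGroup (Fin n)) →* Monoid.Coprod G (FreeGroup (ULift.{u} (Fin n))) :=
    Monoid.Coprod.lift Monoid.Coprod.inl
      (FreeGroup.lift (fun j => Monoid.Coprod.inr (FreeGroup.of (ULift.up j))))
  let w' : ULift.{u} (Fin m) → Monoid.Coprod G (FreeGroup (ULift.{u} (Fin n))) :=
    fun i => up (w i.down)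
  have hup : ∀ j x, (rowHom K G (ULift.{u} (Fin n)) (up x)).toAdd (ULift.up j) =
      ((Multiplicative.toAdd (expHom G n x) j : ℤ) : K) := by
    intro j x
    have h1 : ((evalHom K (ULift.up.{u} j)).comp (rowHom K G (ULift.{u} (Fin n)))).comp up =
        (evalHomFin K j).comp (expHom G n) := by
      apply Monoid.Coprod.hom_ext
      · ext g'
        simp [up, expHom, rowHom]
      · apply FreeGroup.ext_hom
        intro i
        apply Multiplicative.toAdd.injective
        simp only [MonoidHom.comp_apply, up, Monoid.Coprod.lift_apply_inr,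
          FreeGroup.lift_apply_of, expHom, rowHom, evalHomFin_apply, evalHom_apply,
          toAdd_ofAdd]
        by_cases hb : j = i
        · subst hb; simp
        · rw [Finsupp.single_eq_of_ne (by intro h; exact hb (congrArg ULift.down h)),
            Pi.single_eq_of_ne hb]
          simp
    exact congrArg (fun f => (f x).toAdd) h1
  have hli' : LinearIndependent K (fun i => (rowHom K G (ULift.{u} (Fin n)) (w' i)).toAdd) := by
    rw [Fintype.linearIndependent_iff] at hli ⊢
    intro c hc i
    have h2 := hli (fun a => c (ULift.up a)) (by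
      funext j
      simp only [Finset.sum_apply, Pi.smul_apply, Pi.zero_apply, smul_eq_mul]
      have h3 := congrArg (fun f : (ULift.{u} (Fin n)) →₀ K => f (ULift.up j)) hc
      simp only [Finsupp.finset_sum_apply, Finsupp.smul_apply, smul_eq_mul,
        Finsupp.zero_apply] at h3
      rw [← h3]
      refine Fintype.sum_equiv Equiv.ulift.symm _ _ (fun a => ?_)
      simp only [w', expMatrixOver, Matrix.row]
      rw [← hup]
      rfl) i.down
    exact h2
  have hinj := h _ _ w' hli'
  let q := QuotientGroup.mk' (Subgroup.normalClosure (Set.range w'))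
  refine ⟨Monoid.Coprod G (FreeGroup (ULift.{u} (Fin n))) ⧸ Subgroup.normalClosure (Set.range w'),
    inferInstance, q.comp Monoid.Coprod.inl,
    fun j => q (Monoid.Coprod.inr (FreeGroup.of (ULift.up j))), ?_, ?_⟩
  · rw [injective_iff_map_eq_one]
    intro g hg
    apply hinj
    simpa only [q, MonoidHom.comp_apply, QuotientGroup.mk'_apply, QuotientGroup.eq_one_iff] using hg
  · intro i
    have h4 : Monoid.Coprod.lift (q.comp Monoid.Coprod.inl) (FreeGroup.lift
        (fun j => q (Monoid.Coprod.inr (FreeGroup.of (ULift.up j))))) = q.comp up := by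
      apply Monoid.Coprod.hom_ext
      · ext g; simp [up]
      · apply FreeGroup.ext_hom
        intro j
        simp [up]
    rw [h4, MonoidHom.comp_apply]
    simp only [q, QuotientGroup.mk'_apply, QuotientGroup.eq_one_iff]
    exact Subgroup.subset_normalClosure ⟨ULift.up i, rfl⟩

end fin

end Vale.Agent.P174
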