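import Vale.Agent.P174.Fin

namespace Vale.Agent.P174

universe u v

section final

/-- Q1 for the group `G`: every nonsingular finite system over `G` (the exponent-sum matrix has
rank over `ℚ` equal to the number of equations) is solvable over `G`. -/
def Q1 (G : Type u) [Group G] : Prop :=
  ∀ (m n : ℕ) (w : Fin m → Monoid.Coprod G (FreeGroup (Fin n))),
    (expMatrix w).rank = m → SolvableOver w

/-- The exponent-sum matrix modulo `p`. -/
def expMatrixMod (p : ℕ) {G : Type u} [Group G] {m n : ℕ}
    (w : Fin m → Monoid.Coprod G (FreeGroup (Fin n))) : Matrix (Fin m) (Fin n) (ZMod p) :=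
  fun i j => ((Multiplicative.toAdd (expHom G n (w i)) j : ℤ) : ZMod p)

/-- Q1 modulo the prime `p`: every finite system over `G` that is nonsingular modulo `p` is
solvable over `G`. -/
def Q1mod (p : ℕ) [Fact p.Prime] (G : Type u) [Group G] : Prop :=
  ∀ (m n : ℕ) (w : Fin m → Monoid.Coprod G (FreeGroup (Fin n))),
    (expMatrixMod p w).rank = m → SolvableOver w

/-- `G` maps onto the infinite cyclic group. -/
def MapsOntoInt (G : Type u) [Group G] : Prop :=
  ∃ θ : G →* Multiplicative ℤ, Function.Surjective θ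

/-- `G` maps onto the group of order `p`. -/
def MapsOntoZMod (p : ℕ) (G : Type u) [Group G] : Prop :=
  ∃ θ : G →* Multiplicative (ZMod p), Function.Surjective θ

/-- Locally indicable groups. -/
def LocallyIndicable (G : Type u) [Group G] : Prop :=
  ∀ H : Subgroup G, H.FG → H ≠ ⊥ → MapsOntoInt H

/-- Locally `p`-indicable groups. -/
def LocallyPIndicable (p : ℕ) (G : Type u) [Group G] : Prop :=
  ∀ H : Subgroup G, H.FG → H ≠ ⊥ → MapsOntoZMod p H

variable {G : Type u} [Group G]

theorem howieFin_rat_iff : HowieFin ℚ G ↔ Q1 G := Iff.rfl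

theorem howieFin_mod_iff (p : ℕ) [Fact p.Prime] : HowieFin (ZMod p) G ↔ Q1mod p G := Iff.rfl

/-- Separation: if every nontrivial element survives in a group with the property, the property
holds. -/
theorem howieInf_of_separated (K : Type) [Field K]
    (h : ∀ g : G, g ≠ 1 → ∃ (M : Type u) (_ : Group M) (f : G →* M), HowieInf K M ∧ f g ≠ 1) :
    HowieInf K G := by
  intro I J w hli g hg
  by_contra hne
  obtain ⟨M, _, f, hM, hfg⟩ := h g hne
  let F : Monoid.Coprod G (FreeGroup J) →* Monoid.Coprod M (FreeGroup J) :=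
    Monoid.Coprod.lift (Monoid.Coprod.inl.comp f) Monoid.Coprod.inr
  have hrow : ∀ x, rowHom K M J (F x) = rowHom K G J x := by
    intro x
    have : (rowHom K M J).comp F = rowHom K G J := by
      apply Monoid.Coprod.hom_ext
      · ext y; simp [F, rowHom]
      · apply FreeGroup.ext_hom; intro j; simp [F, rowHom]
    exact congrArg (fun f => f x) this
  have hli' : LinearIndependent K (fun i => (rowHom K M J (F (w i))).toAdd) := by
    simp only [hrow]; exact hli
  have h1 := hM I J (fun i => F (w i)) hli' (f g)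
  apply hfg
  apply h1
  have hle : Subgroup.normalClosure (Set.range w) ≤
      (Subgroup.normalClosure (Set.range fun i => F (w i))).comap F := by
    apply Subgroup.normalClosure_le_normal
    rintro _ ⟨i, rfl⟩
    simp only [Subgroup.coe_comap, Set.mem_preimage]
    exact Subgroup.subset_normalClosure ⟨i, rfl⟩
  have h2 := hle hg
  rw [Subgroup.mem_comap] at h2
  simpa [F] using h2

theorem howieInf_of_injective (K : Type) [Field K] {M : Type u} [Group M] (f : G →* M)
    (hf : Function.Injective f) (hM : HowieInf K M) : HowieInf K G :=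
  howieInf_of_separated K (fun g hg => ⟨M, inferInstance, f, hM, fun h =>
    hg (hf (by rw [h, map_one]))⟩)

/-- **Local criterion** over a field. -/
theorem howieFin_of_local (K : Type) [Field K]
    (hyp : ∀ H : Subgroup G, H.FG → (∀ θ : H →* Multiplicative K, θ = 1) → HowieFin K H) :
    HowieFin K G :=
  fin_of_inf (howieInf_of_local K G (fun H h1 h2 => inf_of_fin (hyp H h1 h2)))

theorem not_mapsOntoInt {H : Type u} [Group H] (h : ∀ θ : H →* Multiplicative ℚ, θ = 1) :
    ¬ MapsOntoInt H := by
  rintro ⟨θ, hθ⟩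
  obtain ⟨x, hx⟩ := hθ (Multiplicative.ofAdd 1)
  have h1 := h ((AddMonoidHom.toMultiplicative (Int.castAddHom ℚ)).comp θ)
  have h2 := congrArg (fun f => f x) h1
  simp only [MonoidHom.comp_apply, hx, MonoidHom.one_apply] at h2
  have h3 := congrArg Multiplicative.toAdd h2
  simp at h3

theorem not_mapsOntoZMod (p : ℕ) [Fact p.Prime] {H : Type u} [Group H]
    (h : ∀ θ : H →* Multiplicative (ZMod p), θ = 1) : ¬ MapsOntoZMod p H := by
  rintro ⟨θ, hθ⟩
  obtain ⟨x, hx⟩ := hθ (Multiplicative.ofAdd 1)
  rw [h θ] at hx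
  have h3 := congrArg Multiplicative.toAdd hx
  simp at h3

theorem q1_of_local
    (hyp : ∀ H : Subgroup G, H.FG → ¬ MapsOntoInt H → Q1 H) : Q1 G :=
  howieFin_of_local ℚ (fun H h1 h2 => hyp H h1 (not_mapsOntoInt h2))

theorem q1mod_of_local (p : ℕ) [Fact p.Prime]
    (hyp : ∀ H : Subgroup G, H.FG → ¬ MapsOntoZMod p H → Q1mod p H) : Q1mod p G :=
  howieFin_of_local (ZMod p) (fun H h1 h2 => hyp H h1 (not_mapsOntoZMod p h2))

/-- a subgroup of `G` which is not contained in the normal subgroup `N` has a nontrivial image. -/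
theorem le_of_no_image {A : Type} [Group A] (N : Subgroup G) [N.Normal]
    (hq : ∀ L : Subgroup (G ⧸ N), L.FG → L ≠ ⊥ → ∃ θ : L →* A, Function.Surjective θ)
    (H : Subgroup G) (hFG : H.FG) (hno : ¬ ∃ θ : H →* A, Function.Surjective θ) : H ≤ N := by
  by_contra hle
  let L := H.map (QuotientGroup.mk' N)
  have hL : L.FG := by
    obtain ⟨S, hS⟩ := hFG
    classical
    refine ⟨S.image (QuotientGroup.mk' N), ?_⟩
    rw [Finset.coe_image, ← MonoidHom.map_closure, hS]
  have hne : L ≠ ⊥ := by
    intro h0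
    apply hle
    intro x hx
    have : QuotientGroup.mk' N x ∈ L := ⟨x, hx, rfl⟩
    rw [h0, Subgroup.mem_bot] at this
    simpa using this
  obtain ⟨θ, hθ⟩ := hq L hL hne
  apply hno
  refine ⟨θ.comp ((QuotientGroup.mk' N).subgroupMap H), ?_⟩
  exact hθ.comp ((QuotientGroup.mk' N).subgroupMap_surjective H)

theorem q1_subgroup {N : Subgroup G} (hN : Q1 N) {H : Subgroup G} (h : H ≤ N) : Q1 H :=
  fin_of_inf (K := ℚ) (howieInf_of_injective ℚ (Subgroup.inclusion h)
    (Subgroup.inclusion_injective h) (inf_of_fin (K := ℚ) hN))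

theorem q1mod_subgroup (p : ℕ) [Fact p.Prime] {N : Subgroup G} (hN : Q1mod p N)
    {H : Subgroup G} (h : H ≤ N) : Q1mod p H :=
  fin_of_inf (K := ZMod p) (howieInf_of_injective (ZMod p) (Subgroup.inclusion h)
    (Subgroup.inclusion_injective h) (inf_of_fin (K := ZMod p) hN))

theorem q1_extension (N : Subgroup G) [N.Normal] (hN : Q1 N)
    (hq : LocallyIndicable (G ⧸ N)) : Q1 G :=
  q1_of_local (fun _ h1 h2 => q1_subgroup hN (le_of_no_image N hq _ h1 h2))

theorem q1mod_extension (p : ℕ) [Fact p.Prime] (N : Subgroup G) [N.Normal] (hN : Q1mod p N)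
    (hq : LocallyPIndicable p (G ⧸ N)) : Q1mod p G :=
  q1mod_of_local p (fun _ h1 h2 => q1mod_subgroup p hN (le_of_no_image N hq _ h1 h2))

end final

end Vale.Agent.P174
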