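import Vale.Agent.P174.OneRel
import Vale.Agent.P174.Abel

namespace Vale.Agent.P174

universe u

section final2

variable {G : Type u} [Group G]

theorem acyclic_of_content_ne_one {n : ℕ} (w : Monoid.Coprod G (FreeGroup (Fin n)))
    (hw : content w ≠ 1) : HasAcyclicCover ℚ (fun _ : Fin 1 => w) := by
  classical
  obtain ⟨Ω, ⟨pt⟩, σ, h1, h2⟩ := exists_cover_of_ne_one (content w) hw
  let σ' : Fin n → Equiv.Perm (ULift.{u} Ω) := fun j =>
    Equiv.ulift.trans ((σ j).trans Equiv.ulift.symm)
  have hdown : ∀ (j : Fin n) (ω' : ULift.{u} Ω), (σ' j ω').down = σ j ω'.down := fun _ _ => rfl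
  refine ⟨ULift.{u} Ω, ⟨ULift.up pt⟩, σ', ?_, ?_⟩
  · intro _
    ext1 ω
    have h := lift_equivariant σ' σ ULift.down (fun s ω' => hdown s ω') (content w) ω
    rw [h1] at h
    exact ULift.down_injective h
  · have hmap : ∀ ω : ULift.{u} Ω, Finsupp.mapDomain (Prod.map ULift.down id)
        (edgeVec ℚ σ' (content w) ω) = edgeVec ℚ σ (content w) ω.down := by
      intro ω
      have h := hol_map σ' (edgeConn (J := Fin n) ℚ) (AddMonoidHom.toMultiplicative
        (Finsupp.mapDomain.addMonoidHom (M := ℚ)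
          (Prod.map (ULift.down : ULift.{u} Ω → Ω) (id : Fin n → Fin n)))) (content w) ω
      have h2 : (fun (q : ULift.{u} Ω) (s : Fin n) => (AddMonoidHom.toMultiplicative
          (Finsupp.mapDomain.addMonoidHom (M := ℚ)
            (Prod.map (ULift.down : ULift.{u} Ω → Ω) (id : Fin n → Fin n))))
            (edgeConn (J := Fin n) ℚ q s)) = fun q s => edgeConn (J := Fin n) ℚ q.down s := by
        funext q s
        simp [edgeConn]
      have h3 := hol_pullback σ' σ (ULift.down : ULift.{u} Ω → Ω)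
        (fun s q => hdown s q) (edgeConn (J := Fin n) ℚ) (content w) ω
      rw [h2, h3] at h
      exact congrArg Multiplicative.toAdd h
    refine LinearIndependent.of_comp
      (Finsupp.lmapDomain ℚ ℚ (Prod.map (ULift.down : ULift.{u} Ω → Ω) (id : Fin n → Fin n))) ?_
    have h4 := h2.comp (fun p : ULift.{u} Ω × Fin 1 => p.1.down) (by
      rintro ⟨⟨a⟩, i⟩ ⟨⟨b⟩, j⟩ h
      simp only at h
      subst h
      rw [Subsingleton.elim i j])
    have e : (⇑(Finsupp.lmapDomain ℚ ℚ (Prod.map (ULift.down : ULift.{u} Ω → Ω)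
        (id : Fin n → Fin n))) ∘ fun p : ULift.{u} Ω × Fin 1 => edgeVec ℚ σ' (content w) p.1) =
        ((fun ω => edgeVec ℚ σ (content w) ω) ∘ fun p : ULift.{u} Ω × Fin 1 => p.1.down) := by
      funext p
      exact hmap p.1
    rw [e]
    exact h4

/-- The general criterion. -/
theorem content_criterion
    (hG : ∀ H : Subgroup G, H.FG → MapsOntoInt H ∨ (∀ a b : H, a * b = b * a) ∨ Q1 H) :
    Q1 G ∧
    (∀ (m n : ℕ) (w : Fin m → Monoid.Coprod G (FreeGroup (Fin n))),
      HasAcyclicCover ℚ w → SolvableOver w) ∧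
    (∀ (n : ℕ) (w : Monoid.Coprod G (FreeGroup (Fin n))), content w ≠ 1 →
      SolvableOver (fun _ : Fin 1 => w)) := by
  have hyp : ∀ H : Subgroup G, H.FG → (∀ θ : H →* Multiplicative ℚ, θ = 1) → HowieFin ℚ H := by
    intro H h1 h2
    rcases hG H h1 with h | h | h
    · exact absurd h (not_mapsOntoInt h2)
    · exact q1_of_comm h
    · exact h
  refine ⟨howieFin_of_local ℚ hyp, fun m n w hw => solvable_of_cover w hyp hw, ?_⟩
  intro n w hw
  exact solvable_of_cover _ hyp (acyclic_of_content_ne_one w hw)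

theorem content_criterion_mod (p : ℕ) [Fact p.Prime]
    (hG : ∀ H : Subgroup G, H.FG → MapsOntoZMod p H ∨ Q1mod p H) :
    Q1mod p G ∧
    (∀ (m n : ℕ) (w : Fin m → Monoid.Coprod G (FreeGroup (Fin n))),
      HasAcyclicCover (ZMod p) w → SolvableOver w) := by
  have hyp : ∀ H : Subgroup G, H.FG → (∀ θ : H →* Multiplicative (ZMod p), θ = 1) →
      HowieFin (ZMod p) H := by
    intro H h1 h2
    rcases hG H h1 with h | h
    · exact absurd h (not_mapsOntoZMod p h2)
    · exact h
  exact ⟨howieFin_of_local (ZMod p) hyp, fun m n w hw => solvable_of_cover w hyp hw⟩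

end final2

end Vale.Agent.P174
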