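import Mathlib

/-!
Holonomy of a connection on a set with an action of a free group.

`σ : S → Perm Ω` is an action of the free group on `S` on a set `Ω`, and `m : Ω → S → M` assigns
an element of a group `M` to each edge `ω → σ s ω` labelled `s`.
-/

namespace Vale.Agent.P174

universe u v w

section hol

variable {S Ω M M' : Type*} [Group M] [Group M']

/-- The skew product permutation of a letter. -/
def skew (σ : S → Equiv.Perm Ω) (m : Ω → S → M) (s : S) : Equiv.Perm (Ω × M) where
  toFun p := (σ s p.1, m p.1 s * p.2)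
  invFun p := ((σ s).symm p.1, (m ((σ s).symm p.1) s)⁻¹ * p.2)
  left_inv p := by ext <;> simp
  right_inv p := by ext <;> simp

@[simp] theorem skew_apply (σ : S → Equiv.Perm Ω) (m : Ω → S → M) (s : S) (p : Ω × M) :
    skew σ m s p = (σ s p.1, m p.1 s * p.2) := rfl

/-- The holonomy of `x` from `ω`. -/
def hol (σ : S → Equiv.Perm Ω) (m : Ω → S → M) (x : FreeGroup S) (ω : Ω) : M :=
  (FreeGroup.lift (skew σ m) x (ω, 1)).2

theorem act_aux (σ : S → Equiv.Perm Ω) (m : Ω → S → M) (x : FreeGroup S) :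
    ∀ (ω : Ω) (y : M), FreeGroup.lift (skew σ m) x (ω, y) =
      (FreeGroup.lift σ x ω, (FreeGroup.lift (skew σ m) x (ω, 1)).2 * y) := by
  induction x using FreeGroup.induction_on with
  | C1 => intro ω y; simp
  | of s => intro ω y; simp
  | inv_of s _ =>
    intro ω y
    rw [map_inv, map_inv, FreeGroup.lift_apply_of, FreeGroup.lift_apply_of]
    rw [Equiv.Perm.inv_def, Equiv.Perm.inv_def]
    simp [skew]
  | mul x y hx hy =>
    intro ω z
    rw [map_mul, map_mul, Equiv.Perm.mul_apply, Equiv.Perm.mul_apply, Equiv.Perm.mul_apply]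
    have e1 := hy ω z
    have e2 := hy ω 1
    rw [mul_one] at e2
    rw [e1, hx (FreeGroup.lift σ y ω)
      ((((FreeGroup.lift (skew σ m)) y) (ω, 1)).2 * z), e2]
    rw [hx (FreeGroup.lift σ y ω) (((FreeGroup.lift (skew σ m)) y) (ω, 1)).2]
    simp only [mul_assoc]

theorem act_apply (σ : S → Equiv.Perm Ω) (m : Ω → S → M) (x : FreeGroup S) (ω : Ω) (y : M) :
    FreeGroup.lift (skew σ m) x (ω, y) = (FreeGroup.lift σ x ω, hol σ m x ω * y) :=
  act_aux σ m x ω y

theorem hol_mul (σ : S → Equiv.Perm Ω) (m : Ω → S → M) (x y : FreeGroup S) (ω : Ω) :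
    hol σ m (x * y) ω = hol σ m x (FreeGroup.lift σ y ω) * hol σ m y ω := by
  have : (FreeGroup.lift (skew σ m) (x * y) (ω, 1)).2 = _ := rfl
  rw [hol, map_mul, Equiv.Perm.mul_apply, act_apply, act_apply]
  simp

@[simp] theorem hol_one (σ : S → Equiv.Perm Ω) (m : Ω → S → M) (ω : Ω) :
    hol σ m 1 ω = 1 := by
  simp [hol]

@[simp] theorem hol_of (σ : S → Equiv.Perm Ω) (m : Ω → S → M) (s : S) (ω : Ω) :
    hol σ m (FreeGroup.of s) ω = m ω s := by
  simp [hol]

theorem hol_inv (σ : S → Equiv.Perm Ω) (m : Ω → S → M) (x : FreeGroup S) (ω : Ω) :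
    hol σ m x⁻¹ ω = (hol σ m x ((FreeGroup.lift σ x)⁻¹ ω))⁻¹ := by
  have h := hol_mul σ m x x⁻¹ ω
  rw [mul_inv_cancel, hol_one, map_inv] at h
  exact eq_inv_of_mul_eq_one_right h.symm

theorem hol_map (σ : S → Equiv.Perm Ω) (m : Ω → S → M) (f : M →* M') (x : FreeGroup S) (ω : Ω) :
    f (hol σ m x ω) = hol σ (fun ω s => f (m ω s)) x ω := by
  induction x using FreeGroup.induction_on generalizing ω with
  | C1 => simp
  | of s => simp
  | inv_of s ih => rw [hol_inv, hol_inv, map_inv, ih]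
  | mul x y hx hy => rw [hol_mul, hol_mul, map_mul, hx, hy]

theorem lift_equivariant {Ω' : Type*} (σ' : S → Equiv.Perm Ω') (σ : S → Equiv.Perm Ω)
    (q : Ω' → Ω) (hq : ∀ s ω', q (σ' s ω') = σ s (q ω')) (x : FreeGroup S) (ω' : Ω') :
    q (FreeGroup.lift σ' x ω') = FreeGroup.lift σ x (q ω') := by
  induction x using FreeGroup.induction_on generalizing ω' with
  | C1 => simp
  | of s => simp [hq]
  | inv_of s ih =>
    rw [map_inv, map_inv, Equiv.Perm.eq_inv_iff_eq, ← ih]
    simp
  | mul x y hx hy => rw [map_mul, map_mul, Equiv.Perm.mul_apply, Equiv.Perm.mul_apply, hx, hy]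

theorem hol_pullback {Ω' : Type*} (σ' : S → Equiv.Perm Ω') (σ : S → Equiv.Perm Ω)
    (q : Ω' → Ω) (hq : ∀ s ω', q (σ' s ω') = σ s (q ω')) (m : Ω → S → M) (x : FreeGroup S)
    (ω' : Ω') :
    hol σ' (fun ω s => m (q ω) s) x ω' = hol σ m x (q ω') := by
  induction x using FreeGroup.induction_on generalizing ω' with
  | C1 => simp
  | of s => simp
  | inv_of s ih =>
    rw [hol_inv, hol_inv, ih, ← map_inv, ← map_inv, lift_equivariant σ' σ q hq]
  | mul x y hx hy =>
    rw [hol_mul, hol_mul, hx, hy, lift_equivariant σ' σ q hq]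

end hol

section fox

variable {G J Ω : Type*} (K : Type*) [Field K]

/-- The connection that counts the edges labelled by unknowns. -/
noncomputable def foxConn : Ω → (G ⊕ J) → Multiplicative ((Ω × J) →₀ K)
  | _, Sum.inl _ => 1
  | ω, Sum.inr j => Multiplicative.ofAdd (Finsupp.single (ω, j) 1)

/-- The vector of algebraic numbers of passages through the edges labelled by unknowns. -/
noncomputable def fox (σ : (G ⊕ J) → Equiv.Perm Ω) (x : FreeGroup (G ⊕ J)) (ω : Ω) :
    (Ω × J) →₀ K :=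
  Multiplicative.toAdd (hol σ (foxConn K) x ω)

theorem fox_equivariant {Ω' : Type*} (σ' : (G ⊕ J) → Equiv.Perm Ω') (σ : (G ⊕ J) → Equiv.Perm Ω)
    (q : Ω' → Ω) (hq : ∀ s ω', q (σ' s ω') = σ s (q ω')) (x : FreeGroup (G ⊕ J)) (ω' : Ω') :
    Finsupp.mapDomain (Prod.map q id) (fox K σ' x ω') = fox K σ x (q ω') := by
  have h := hol_map σ' (foxConn (G := G) (J := J) K)
    (AddMonoidHom.toMultiplicative
      (Finsupp.mapDomain.addMonoidHom (M := K) (Prod.map q (id : J → J)))) x ω'
  have h2 : (fun (ω : Ω') (s : G ⊕ J) => (AddMonoidHom.toMultiplicative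
      (Finsupp.mapDomain.addMonoidHom (M := K) (Prod.map q (id : J → J))))
        (foxConn (G := G) (J := J) K ω s)) = fun ω s => foxConn (G := G) (J := J) K (q ω) s := by
    funext ω s
    rcases s with g | j
    · simp [foxConn]
    · simp [foxConn]
  rw [h2, hol_pullback σ' σ q hq] at h
  have h3 := congrArg Multiplicative.toAdd h
  exact h3

end fox

end Vale.Agent.P174
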