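import Vale.Agent.P174.Main

namespace Vale.Agent.P174

universe u

section inf

variable {G J I : Type u} [Group G]

/-- The projection of the free group on `G ⊕ J` onto `G * F(J)`. -/
def proj (G J : Type u) [Group G] : FreeGroup (G ⊕ J) →* Monoid.Coprod G (FreeGroup J) :=
  FreeGroup.lift (Sum.elim (fun g => Monoid.Coprod.inl g)
    (fun j => Monoid.Coprod.inr (FreeGroup.of j)))

theorem proj_surjective (x : Monoid.Coprod G (FreeGroup J)) : ∃ y, proj G J y = x := by
  induction x using Monoid.Coprod.induction_on with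
  | inl g => exact ⟨FreeGroup.of (Sum.inl g), by simp [proj]⟩
  | inr f =>
    refine ⟨FreeGroup.map Sum.inr f, ?_⟩
    have : (proj G J).comp (FreeGroup.map Sum.inr) = Monoid.Coprod.inr := by
      apply FreeGroup.ext_hom
      intro j
      simp [proj]
    exact congrArg (fun f' => f' f) this
  | mul x y hx hy =>
    obtain ⟨a, rfl⟩ := hx
    obtain ⟨b, rfl⟩ := hy
    exact ⟨a * b, map_mul _ _ _⟩

theorem hol_const {S Ω M : Type*} [Group M] (σ : S → Equiv.Perm Ω) (c : FreeGroup S →* M)
    (x : FreeGroup S) (ω : Ω) : hol σ (fun _ s => c (FreeGroup.of s)) x ω = c x := by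
  induction x using FreeGroup.induction_on generalizing ω with
  | C1 => simp
  | of s => simp
  | inv_of s ih => rw [hol_inv, ih, map_inv]
  | mul x y hx hy => rw [hol_mul, hx, hy, map_mul]

theorem lift_to_free (w : I → FreeGroup (G ⊕ J)) (g0 : G)
    (h : Monoid.Coprod.inl g0 ∈ Subgroup.normalClosure (Set.range (fun i => proj G J (w i)))) :
    (FreeGroup.of (Sum.inl g0) : FreeGroup (G ⊕ J)) ∈
      Subgroup.normalClosure ({x | ∃ g h : G, x = tri g h} ∪ Set.range w) := by
  set N := Subgroup.normalClosure ({x : FreeGroup (G ⊕ J) | ∃ g h : G, x = tri g h} ∪ Set.range w)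
    with hN
  let mk := QuotientGroup.mk' N
  let a : G →* FreeGroup (G ⊕ J) ⧸ N := MonoidHom.mk' (fun g => mk (FreeGroup.of (Sum.inl g)))
    (by
      intro g h
      rw [← map_mul]
      have h1 : (tri g h : FreeGroup (G ⊕ J)) ∈ N :=
        Subgroup.subset_normalClosure (Or.inl ⟨g, h, rfl⟩)
      have h2 : mk (tri g h) = 1 := by
        simp only [mk, QuotientGroup.mk'_apply, QuotientGroup.eq_one_iff]; exact h1
      unfold tri at h2
      rw [map_mul, map_inv, mul_inv_eq_one] at h2
      exact h2.symm)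
  let ψ : Monoid.Coprod G (FreeGroup J) →* FreeGroup (G ⊕ J) ⧸ N :=
    Monoid.Coprod.lift a (FreeGroup.lift (fun j => mk (FreeGroup.of (Sum.inr j))))
  have hψ : ψ.comp (proj G J) = mk := by
    apply FreeGroup.ext_hom
    rintro (g | j)
    · simp [ψ, proj, a]
    · simp [ψ, proj]
  have hle : Subgroup.normalClosure (Set.range (fun i => proj G J (w i))) ≤ ψ.ker := by
    apply Subgroup.normalClosure_le_normal
    rintro _ ⟨i, rfl⟩
    simp only [SetLike.mem_coe, MonoidHom.mem_ker]
    have := congrArg (fun f => f (w i)) hψ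
    simp only [MonoidHom.comp_apply] at this
    rw [this]
    simp only [mk, QuotientGroup.mk'_apply, QuotientGroup.eq_one_iff]
    exact Subgroup.subset_normalClosure (Or.inr ⟨i, rfl⟩)
  have h3 := hle h
  rw [MonoidHom.mem_ker] at h3
  have h4 : mk (FreeGroup.of (Sum.inl g0)) = 1 := by
    rw [← h3]; simp [ψ, a]
  simpa only [mk, QuotientGroup.mk'_apply, QuotientGroup.eq_one_iff] using h4

theorem exists_finite (w : I → FreeGroup (G ⊕ J)) (x : FreeGroup (G ⊕ J))
    (hx : x ∈ Subgroup.normalClosure ({x | ∃ g h : G, x = tri g h} ∪ Set.range w)) :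
    ∃ T : Finset (FreeGroup (G ⊕ J) × G × G), x ∈ Subgroup.closure
      ({x | ∃ t ∈ T, x = t.1⁻¹ * tri t.2.1 t.2.2 * t.1} ∪
        {x : FreeGroup (G ⊕ J) | ∃ i u, x = u⁻¹ * w i * u}) := by
  classical
  have hmono : ∀ T T' : Finset (FreeGroup (G ⊕ J) × G × G), T ⊆ T' → Subgroup.closure
      ({x | ∃ t ∈ T, x = t.1⁻¹ * tri t.2.1 t.2.2 * t.1} ∪
        {x : FreeGroup (G ⊕ J) | ∃ i u, x = u⁻¹ * w i * u}) ≤ Subgroup.closure
      ({x | ∃ t ∈ T', x = t.1⁻¹ * tri t.2.1 t.2.2 * t.1} ∪
        {x : FreeGroup (G ⊕ J) | ∃ i u, x = u⁻¹ * w i * u}) := by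
    intro T T' hT
    apply Subgroup.closure_mono
    apply Set.union_subset_union_left
    rintro x ⟨t, ht, rfl⟩
    exact ⟨t, hT ht, rfl⟩
  unfold Subgroup.normalClosure at hx
  induction hx using Subgroup.closure_induction with
  | mem x hx =>
    rw [Group.mem_conjugatesOfSet_iff] at hx
    obtain ⟨a, ha, hax⟩ := hx
    rw [isConj_iff] at hax
    obtain ⟨c, rfl⟩ := hax
    rcases ha with ⟨g, h, rfl⟩ | ⟨i, rfl⟩
    · refine ⟨{(c⁻¹, g, h)}, Subgroup.subset_closure (Or.inl ⟨(c⁻¹, g, h), by simp, by simp⟩)⟩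
    · exact ⟨∅, Subgroup.subset_closure (Or.inr ⟨i, c⁻¹, by simp⟩)⟩
  | one => exact ⟨∅, Subgroup.one_mem _⟩
  | mul a b _ _ iha ihb =>
    obtain ⟨T1, h1⟩ := iha
    obtain ⟨T2, h2⟩ := ihb
    exact ⟨T1 ∪ T2, Subgroup.mul_mem _ (hmono _ _ Finset.subset_union_left h1)
      (hmono _ _ Finset.subset_union_right h2)⟩
  | inv a _ iha =>
    obtain ⟨T1, h1⟩ := iha
    exact ⟨T1, Subgroup.inv_mem _ h1⟩

/-- The initial stage. -/
noncomputable def Stage.init (K : Type) [Field K] (w : I → FreeGroup (G ⊕ J))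
    (T : Set (FreeGroup (G ⊕ J) × G × G))
    (h : LinearIndependent K (fun i => (rowHom K G J (proj G J (w i))).toAdd)) :
    Stage K w T where
  Ω := PUnit
  σ := fun _ => 1
  pt := PUnit.unit
  hI i := Subsingleton.elim _ _
  hT t _ := Subsingleton.elim _ _
  hli := by
    classical
    refine LinearIndependent.of_comp (Finsupp.lmapDomain K K (Prod.snd : PUnit × J → J)) ?_
    have h2 := h.comp (fun p : PUnit.{u+1} × I => p.2) (by
      rintro ⟨⟨⟩, i⟩ ⟨⟨⟩, j⟩ hh
      simp only at hh
      rw [hh])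
    convert h2 using 1
    funext p
    simp only [Function.comp]
    have h3 := hol_map (fun _ : G ⊕ J => (1 : Equiv.Perm PUnit.{u+1})) (foxConn (G := G) (J := J) K)
      (AddMonoidHom.toMultiplicative
        (Finsupp.mapDomain.addMonoidHom (M := K) (Prod.snd : PUnit.{u+1} × J → J))) (w p.2) p.1
    have h4 : (fun (ω : PUnit.{u+1}) (s : G ⊕ J) => (AddMonoidHom.toMultiplicative
        (Finsupp.mapDomain.addMonoidHom (M := K) (Prod.snd : PUnit.{u+1} × J → J)))
        (foxConn (G := G) (J := J) K ω s)) =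
        fun _ s => ((rowHom K G J).comp (proj G J)) (FreeGroup.of s) := by
      funext ω s
      rcases s with g | j
      · simp [foxConn, proj, rowHom]
      · simp [foxConn, proj, rowHom]
    rw [h4, hol_const] at h3
    exact congrArg Multiplicative.toAdd h3

/-- **Main theorem**, for arbitrary systems. -/
theorem howieInf_of_local (K : Type) [Field K] (G : Type u) [Group G]
    (hyp : ∀ H : Subgroup G, H.FG → (∀ θ : H →* Multiplicative K, θ = 1) → HowieInf K H) :
    HowieInf K G := by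
  intro I J w hli g0 hg0
  choose w' hw' using fun i => proj_surjective (w i)
  have e : w = fun i => proj G J (w' i) := by funext i; rw [hw']
  subst e
  obtain ⟨T, hT⟩ := exists_finite w' _ (lift_to_free w' g0 hg0)
  exact tower_main T g0 (Stage.init K w' T hli) hyp hT

end inf

end Vale.Agent.P174
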