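import Vale.Agent.P174.Tower

namespace Vale.Agent.P174

universe u

section main

variable {G J I : Type u} [Group G]

theorem hol_tri {Ω M : Type*} [Group M] (σ : (G ⊕ J) → Equiv.Perm Ω) (m : Ω → (G ⊕ J) → M)
    (g h : G) (ω : Ω) :
    hol σ m (tri g h) (σ (Sum.inl (g * h)) ω) =
      m (σ (Sum.inl h) ω) (Sum.inl g) * m ω (Sum.inl h) * (m ω (Sum.inl (g * h)))⁻¹ := by
  unfold tri
  rw [hol_mul, hol_mul, hol_inv, hol_of, hol_of, hol_of, map_inv, FreeGroup.lift_apply_of,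
    FreeGroup.lift_apply_of]
  simp

variable {K : Type} [Field K] {w : I → FreeGroup (G ⊕ J)}

theorem tower_main (T : Finset (FreeGroup (G ⊕ J) × G × G)) (g0 : G)
    (s0 : Stage K w (T : Set (FreeGroup (G ⊕ J) × G × G)))
    (hyp : ∀ H : Subgroup G, H.FG → (∀ θ : H →* Multiplicative K, θ = 1) → HowieInf K H)
    (hg0 : FreeGroup.of (Sum.inl g0) ∈ Subgroup.closure
      ({x | ∃ t ∈ T, x = t.1⁻¹ * tri t.2.1 t.2.2 * t.1} ∪
        {x : FreeGroup (G ⊕ J) | ∃ i u, x = u⁻¹ * w i * u})) :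
    g0 = 1 := by
  classical
  -- visited edges
  let E : Finset (FreeGroup (G ⊕ J) × G) :=
    {(1, g0)} ∪ T.image (fun t => ((FreeGroup.of (Sum.inl (t.2.1 * t.2.2)))⁻¹ * t.1, t.2.1 * t.2.2)) ∪
      T.image (fun t => ((FreeGroup.of (Sum.inl (t.2.1 * t.2.2)))⁻¹ * t.1, t.2.2)) ∪
      T.image (fun t => (FreeGroup.of (Sum.inl t.2.2) *
        ((FreeGroup.of (Sum.inl (t.2.1 * t.2.2)))⁻¹ * t.1), t.2.1))
  let W : Finset (FreeGroup (G ⊕ J)) :=
    E.image Prod.fst ∪ E.image (fun e => FreeGroup.of (Sum.inl e.2) * e.1)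
  obtain ⟨s, hmax⟩ := exists_max_stage s0 W
  let σ := s.σ
  let pt := s.pt
  let vis : s.Ω → G → Prop := fun ω g => ∃ p, (p, g) ∈ E ∧ FreeGroup.lift σ p pt = ω
  -- the three visited edges of a relator of the multiplication table
  have htri : ∀ t ∈ T, ∃ ω : s.Ω, FreeGroup.lift σ t.1 pt = σ (Sum.inl (t.2.1 * t.2.2)) ω ∧
      vis ω (t.2.1 * t.2.2) ∧ vis ω t.2.2 ∧ vis (σ (Sum.inl t.2.2) ω) t.2.1 ∧
      σ (Sum.inl t.2.1) (σ (Sum.inl t.2.2) ω) = σ (Sum.inl (t.2.1 * t.2.2)) ω := by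
    intro t ht
    refine ⟨FreeGroup.lift σ ((FreeGroup.of (Sum.inl (t.2.1 * t.2.2)))⁻¹ * t.1) pt, ?_, ?_, ?_,
      ?_, ?_⟩
    · simp
    · refine ⟨(FreeGroup.of (Sum.inl (t.2.1 * t.2.2)))⁻¹ * t.1, ?_, rfl⟩
      simp only [E, Finset.mem_union, Finset.mem_image]
      exact Or.inl (Or.inl (Or.inr ⟨t, ht, rfl⟩))
    · refine ⟨(FreeGroup.of (Sum.inl (t.2.1 * t.2.2)))⁻¹ * t.1, ?_, rfl⟩
      simp only [E, Finset.mem_union, Finset.mem_image]
      exact Or.inl (Or.inr ⟨t, ht, rfl⟩)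
    · refine ⟨FreeGroup.of (Sum.inl t.2.2) *
        ((FreeGroup.of (Sum.inl (t.2.1 * t.2.2)))⁻¹ * t.1), ?_, ?_⟩
      · simp only [E, Finset.mem_union, Finset.mem_image]
        exact Or.inr ⟨t, ht, rfl⟩
      · simp
    · have h := s.hT t ht
      unfold tri at h
      rw [map_mul, map_mul, Equiv.Perm.mul_apply, Equiv.Perm.mul_apply, map_inv,
        FreeGroup.lift_apply_of, FreeGroup.lift_apply_of, FreeGroup.lift_apply_of] at h
      rw [map_mul, map_inv, FreeGroup.lift_apply_of, Equiv.Perm.mul_apply]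
      have e : σ (Sum.inl (t.2.1 * t.2.2)) ((σ (Sum.inl (t.2.1 * t.2.2)))⁻¹
          (FreeGroup.lift σ t.1 pt)) = FreeGroup.lift σ t.1 pt := by simp
      rw [e]
      exact h
  have hvis0 : vis pt g0 := ⟨1, by simp [E], by simp⟩
  obtain ⟨γ, hγ1, hγ⟩ := exists_potential σ vis pt
  let R : Set s.Ω := {ω | ∃ x, Reach σ vis pt ω x}
  have hRpt : pt ∈ R := ⟨1, Reach.base⟩
  have hRiff : ∀ ω g, vis ω g → (ω ∈ R ↔ σ (Sum.inl g) ω ∈ R) := by
    intro ω g hv
    constructor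
    · rintro ⟨x, hx⟩; exact ⟨_, Reach.fwd hx hv⟩
    · rintro ⟨x, hx⟩; exact ⟨_, Reach.bwd hx hv⟩
  let nn : s.Ω → G → G := fun ω g => (γ (σ (Sum.inl g) ω))⁻¹ * g * γ ω
  let Hset : Set G := {y | ∃ ω g, vis ω g ∧ ω ∈ R ∧ y = nn ω g}
  have hfin : Hset.Finite := by
    refine Set.Finite.subset (E.image (fun e => nn (FreeGroup.lift σ e.1 pt) e.2)).finite_toSet ?_
    rintro y ⟨ω, g, ⟨p, hp, rfl⟩, _, rfl⟩
    simp only [Finset.coe_image, Set.mem_image, Finset.mem_coe]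
    exact ⟨(p, g), hp, rfl⟩
  let H : Subgroup G := Subgroup.closure Hset
  have hnn : ∀ ω g, vis ω g → ω ∈ R → nn ω g ∈ H := fun ω g hv hR =>
    Subgroup.subset_closure ⟨ω, g, hv, hR, rfl⟩
  have hFG : H.FG := (Subgroup.fg_iff H).mpr ⟨Hset, rfl, hfin⟩
  -- no homomorphism to K
  have hHom : ∀ θ : H →* Multiplicative K, θ = 1 := by
    intro θ
    let α0 : s.Ω → G → K := fun ω g =>
      if h : vis ω g ∧ ω ∈ R then (θ ⟨nn ω g, hnn ω g h.1 h.2⟩).toAdd else 0
    obtain ⟨α, hα0, hαI⟩ := exists_compensate (w := w) σ s.hli α0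
    have hαT : ∀ t ∈ (T : Set (FreeGroup (G ⊕ J) × G × G)),
        hol s.σ α (tri t.2.1 t.2.2) (FreeGroup.lift s.σ t.1 s.pt) = 1 := by
      intro t ht
      obtain ⟨ω, h1, h2, h3, h4, h5⟩ := htri t ht
      change hol σ α (tri t.2.1 t.2.2) (FreeGroup.lift σ t.1 pt) = 1
      rw [h1, hol_tri, hα0, hα0, hα0]
      by_cases hR : ω ∈ R
      · have hR' : σ (Sum.inl t.2.2) ω ∈ R := (hRiff ω _ h3).mp hR
        have e1 : α0 (σ (Sum.inl t.2.2) ω) t.2.1 =
            (θ ⟨nn (σ (Sum.inl t.2.2) ω) t.2.1, hnn _ _ h4 hR'⟩).toAdd := by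
          simp only [α0]; rw [dif_pos ⟨h4, hR'⟩]
        have e2 : α0 ω t.2.2 = (θ ⟨nn ω t.2.2, hnn _ _ h3 hR⟩).toAdd := by
          simp only [α0]; rw [dif_pos ⟨h3, hR⟩]
        have e3 : α0 ω (t.2.1 * t.2.2) = (θ ⟨nn ω (t.2.1 * t.2.2), hnn _ _ h2 hR⟩).toAdd := by
          simp only [α0]; rw [dif_pos ⟨h2, hR⟩]
        rw [e1, e2, e3]
        simp only [ofAdd_toAdd]
        rw [← map_mul, ← map_inv, ← map_mul]
        have : ((⟨nn (σ (Sum.inl t.2.2) ω) t.2.1, hnn _ _ h4 hR'⟩ : H) *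
            (⟨nn ω t.2.2, hnn _ _ h3 hR⟩ : H)) *
            (⟨nn ω (t.2.1 * t.2.2), hnn _ _ h2 hR⟩ : H)⁻¹ = 1 := by
          rw [mul_inv_eq_one]
          ext
          simp only [Subgroup.coe_mul, nn]
          rw [h5]
          group
        rw [this, map_one]
      · have hR' : ¬ σ (Sum.inl t.2.2) ω ∈ R := fun h => hR ((hRiff ω _ h3).mpr h)
        have e1 : α0 (σ (Sum.inl t.2.2) ω) t.2.1 = 0 := by
          simp only [α0]; rw [dif_neg (fun h => hR' h.2)]
        have e2 : α0 ω t.2.2 = 0 := by simp only [α0]; rw [dif_neg (fun h => hR h.2)]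
        have e3 : α0 ω (t.2.1 * t.2.2) = 0 := by simp only [α0]; rw [dif_neg (fun h => hR h.2)]
        rw [e1, e2, e3]; simp
    obtain ⟨β, hβ⟩ := potential_of_max s W hmax α hαI hαT
    have hβe : ∀ ω g (hv : vis ω g) (hR : ω ∈ R),
        θ ⟨nn ω g, hnn ω g hv hR⟩ = β (σ (Sum.inl g) ω) * (β ω)⁻¹ := by
      intro ω g hv hR
      obtain ⟨p, hp, rfl⟩ := id hv
      have hp1 : p ∈ W := by
        simp only [W, Finset.mem_union, Finset.mem_image]
        exact Or.inl ⟨(p, g), hp, rfl⟩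
      have hp2 : FreeGroup.of (Sum.inl g) * p ∈ W := by
        simp only [W, Finset.mem_union, Finset.mem_image]
        exact Or.inr ⟨(p, g), hp, rfl⟩
      have b1 := hβ p hp1
      have b2 := hβ _ hp2
      rw [hol_mul, hol_of, b1, map_mul, Equiv.Perm.mul_apply, FreeGroup.lift_apply_of] at b2
      have b3 : α (FreeGroup.lift σ p pt) (Sum.inl g) =
          θ ⟨nn (FreeGroup.lift σ p pt) g, hnn _ g hv hR⟩ := by
        rw [hα0]
        simp only [α0]
        rw [dif_pos ⟨hv, hR⟩, ofAdd_toAdd]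
      change α (FreeGroup.lift σ p pt) (Sum.inl g) * β (FreeGroup.lift σ p pt) =
        β (σ (Sum.inl g) (FreeGroup.lift σ p pt)) at b2
      rw [b3] at b2
      rw [← b2]
      simp
    have hpath : ∀ ω x, Reach σ vis pt ω x → ∃ hx : (γ ω)⁻¹ * x ∈ H,
        θ ⟨(γ ω)⁻¹ * x, hx⟩ = β ω * (β pt)⁻¹ := by
      intro ω x hx
      induction hx with
      | base =>
        refine ⟨by rw [hγ1]; simp, ?_⟩
        have : (⟨(γ pt)⁻¹ * 1, by rw [hγ1]; simp⟩ : H) = 1 := by
          ext; simp [hγ1]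
        rw [this]; simp
      | @fwd ω x g hr hv ih =>
        obtain ⟨hx, hθ⟩ := ih
        have hR : ω ∈ R := ⟨_, hr⟩
        have e : (γ (σ (Sum.inl g) ω))⁻¹ * (g * x) = nn ω g * ((γ ω)⁻¹ * x) := by
          simp only [nn]; group
        have hm : (γ (σ (Sum.inl g) ω))⁻¹ * (g * x) ∈ H := by
          rw [e]; exact H.mul_mem (hnn ω g hv hR) hx
        refine ⟨hm, ?_⟩
        have e' : (⟨(γ (σ (Sum.inl g) ω))⁻¹ * (g * x), hm⟩ : H) =
            ⟨nn ω g, hnn ω g hv hR⟩ * ⟨(γ ω)⁻¹ * x, hx⟩ := by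
          ext; exact e
        rw [e', map_mul, hβe ω g hv hR, hθ]
        group
      | @bwd ω x g hr hv ih =>
        obtain ⟨hx, hθ⟩ := ih
        have hR : ω ∈ R := (hRiff ω g hv).mpr ⟨_, hr⟩
        have e : (γ ω)⁻¹ * (g⁻¹ * x) = (nn ω g)⁻¹ * ((γ (σ (Sum.inl g) ω))⁻¹ * x) := by
          simp only [nn]; group
        have hm : (γ ω)⁻¹ * (g⁻¹ * x) ∈ H := by
          rw [e]; exact H.mul_mem (H.inv_mem (hnn ω g hv hR)) hx
        refine ⟨hm, ?_⟩
        have e' : (⟨(γ ω)⁻¹ * (g⁻¹ * x), hm⟩ : H) =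
            (⟨nn ω g, hnn ω g hv hR⟩)⁻¹ * ⟨(γ (σ (Sum.inl g) ω))⁻¹ * x, hx⟩ := by
          ext; exact e
        rw [e', map_mul, map_inv, hβe ω g hv hR, hθ]
        group
    have hconst : ∀ ω ∈ R, β ω = β pt := by
      rintro ω ⟨x, hx⟩
      obtain ⟨h1, h2⟩ := hpath ω (γ ω) (hγ ω x hx)
      have : (⟨(γ ω)⁻¹ * γ ω, h1⟩ : H) = 1 := by ext; simp
      rw [this, map_one] at h2
      exact (mul_inv_eq_one.mp h2.symm)
    ext ⟨y, hy⟩
    have : ∀ y (hy : y ∈ H), θ ⟨y, hy⟩ = 1 := by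
      intro y hy
      induction hy using Subgroup.closure_induction with
      | mem y hy =>
        obtain ⟨ω, g, hv, hR, rfl⟩ := hy
        have hR' := (hRiff ω g hv).mp hR
        rw [hβe ω g hv hR, hconst _ hR, hconst _ hR']
        simp
      | one => exact map_one θ
      | mul a b ha hb iha ihb =>
        have : (⟨a * b, H.mul_mem ha hb⟩ : H) = ⟨a, ha⟩ * ⟨b, hb⟩ := rfl
        rw [this, map_mul, iha, ihb, one_mul]
      | inv a ha iha =>
        have : (⟨a⁻¹, H.inv_mem ha⟩ : H) = (⟨a, ha⟩)⁻¹ := rfl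
        rw [this, map_inv, iha, inv_one]
    exact congrArg _ (this y hy)
  have hH := hyp H hFG hHom
  -- the system over H
  let mc : s.Ω → (G ⊕ J) → Monoid.Coprod H (FreeGroup (s.Ω × J)) := fun ω x => match x with
    | Sum.inl g => if h : vis ω g ∧ ω ∈ R then Monoid.Coprod.inl ⟨nn ω g, hnn ω g h.1 h.2⟩ else 1
    | Sum.inr j => Monoid.Coprod.inr (FreeGroup.of (ω, j))
  let w' : s.Ω × I → Monoid.Coprod H (FreeGroup (s.Ω × J)) := fun p => hol σ mc (w p.2) p.1
  have hrow : ∀ p, (rowHom K H (s.Ω × J) (w' p)).toAdd = fox K σ (w p.2) p.1 := by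
    intro p
    have h := hol_map σ mc (rowHom K H (s.Ω × J)) (w p.2) p.1
    have h3 : (fun (ω : s.Ω) (x : G ⊕ J) => rowHom K H (s.Ω × J) (mc ω x)) =
        foxConn (G := G) (J := J) K := by
      funext ω x
      rcases x with g | j
      · by_cases hh : vis ω g ∧ ω ∈ R
        · simp [mc, dif_pos hh, rowHom, foxConn]
        · simp [mc, dif_neg hh, rowHom, foxConn]
      · simp [mc, rowHom, foxConn]
    rw [h3] at h
    simp only [w']
    rw [h]
    rfl
  have hli' : LinearIndependent K (fun p => (rowHom K H (s.Ω × J) (w' p)).toAdd) := by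
    have : (fun p => (rowHom K H (s.Ω × J) (w' p)).toAdd) =
      (fun p : s.Ω × I => fox K σ (w p.2) p.1) := funext hrow
    rw [this]; exact s.hli
  have hfinal := hH (s.Ω × I) (s.Ω × J) w' hli'
  let Nc := Subgroup.normalClosure (Set.range w')
  let q := QuotientGroup.mk' Nc
  have hact : FreeGroup.lift (skew σ (fun ω x => q (mc ω x))) (FreeGroup.of (Sum.inl g0)) (pt, 1) =
      (pt, 1) := by
    have hst : Subgroup.closure
      ({x | ∃ t ∈ T, x = t.1⁻¹ * tri t.2.1 t.2.2 * t.1} ∪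
        {x : FreeGroup (G ⊕ J) | ∃ i u, x = u⁻¹ * w i * u}) ≤
        (MulAction.stabilizer (Equiv.Perm (s.Ω × (Monoid.Coprod H (FreeGroup (s.Ω × J)) ⧸ Nc)))
          ((pt, 1) : s.Ω × (Monoid.Coprod H (FreeGroup (s.Ω × J)) ⧸ Nc))).comap
          (FreeGroup.lift (skew σ (fun ω x => q (mc ω x)))) := by
      rw [Subgroup.closure_le]
      rintro x (⟨t, ht, rfl⟩ | ⟨i, v, rfl⟩)
      · simp only [Subgroup.coe_comap, Set.mem_preimage, SetLike.mem_coe,
          MulAction.mem_stabilizer_iff, Equiv.Perm.smul_def]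
        rw [map_mul, map_mul, Equiv.Perm.mul_apply, Equiv.Perm.mul_apply, map_inv,
          Equiv.Perm.inv_eq_iff_eq]
        rw [act_apply]
        rw [act_apply]
        obtain ⟨ω, h1, h2, h3, h4, h5⟩ := htri t ht
        have h6 := s.hT t ht
        change FreeGroup.lift σ (tri t.2.1 t.2.2) (FreeGroup.lift σ t.1 pt) =
          FreeGroup.lift σ t.1 pt at h6
        rw [h6]
        have h7 : hol σ (fun ω x => q (mc ω x)) (tri t.2.1 t.2.2) (FreeGroup.lift σ t.1 pt) = 1 := by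
          rw [h1, hol_tri]
          rw [← map_mul, ← map_inv, ← map_mul]
          rw [← map_one q]
          congr 1
          rw [mul_inv_eq_one]
          by_cases hR : ω ∈ R
          · have hR' : σ (Sum.inl t.2.2) ω ∈ R := (hRiff ω _ h3).mp hR
            simp only [mc]
            rw [dif_pos ⟨h4, hR'⟩, dif_pos ⟨h3, hR⟩, dif_pos ⟨h2, hR⟩, ← map_mul]
            congr 1
            ext
            simp only [Subgroup.coe_mul, nn]
            rw [h5]
            group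
          · have hR' : ¬ σ (Sum.inl t.2.2) ω ∈ R := fun h => hR ((hRiff ω _ h3).mpr h)
            simp only [mc]
            rw [dif_neg (fun h => hR' h.2), dif_neg (fun h => hR h.2), dif_neg (fun h => hR h.2),
              one_mul]
        rw [h7, one_mul]
      · simp only [Subgroup.coe_comap, Set.mem_preimage, SetLike.mem_coe,
          MulAction.mem_stabilizer_iff, Equiv.Perm.smul_def]
        rw [map_mul, map_mul, Equiv.Perm.mul_apply, Equiv.Perm.mul_apply, map_inv,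
          Equiv.Perm.inv_eq_iff_eq]
        rw [act_apply]
        rw [act_apply]
        have h6 : FreeGroup.lift σ (w i) = 1 := s.hI i
        rw [h6]
        have h7 : hol σ (fun ω x => q (mc ω x)) (w i) (FreeGroup.lift σ v pt) = 1 := by
          rw [← hol_map σ mc q]
          have : hol σ mc (w i) (FreeGroup.lift σ v pt) = w' (FreeGroup.lift σ v pt, i) := rfl
          rw [this, QuotientGroup.mk'_apply, QuotientGroup.eq_one_iff]
          exact Subgroup.subset_normalClosure ⟨_, rfl⟩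
        rw [h7]
        simp
    have := hst hg0
    simpa only [Subgroup.mem_comap, MulAction.mem_stabilizer_iff, Equiv.Perm.smul_def] using this
  rw [act_apply, hol_of, FreeGroup.lift_apply_of] at hact
  have hp1 := congrArg Prod.fst hact
  have hp2 := congrArg Prod.snd hact
  simp only [mul_one] at hp1 hp2
  have hmc : mc pt (Sum.inl g0) = Monoid.Coprod.inl ⟨nn pt g0, hnn pt g0 hvis0 hRpt⟩ := by
    simp only [mc]; rw [dif_pos ⟨hvis0, hRpt⟩]
  rw [hmc, QuotientGroup.mk'_apply, QuotientGroup.eq_one_iff] at hp2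
  have h8 := hfinal _ hp2
  have h9 : nn pt g0 = 1 := congrArg Subtype.val h8
  simp only [nn] at h9
  rw [hp1, hγ1] at h9
  simpa using h9

end main

end Vale.Agent.P174
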