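import Vale.Agent.P174.Cont

/-!
A single word `c ≠ 1` in a free group has a covering with vanishing second homology: the covering
with group `F / F^(k)` (free solvable group) where `c ∈ F^(k) ∖ F^(k+1)`.
-/

namespace Vale.Agent.P174

universe u

section ext

theorem uniqueProds_of_ker {A B : Type*} [Group A] [Group B] [UniqueProds B] (f : A →* B)
    [UniqueProds f.ker] : UniqueProds A where
  uniqueMul_of_nonempty := by
    classical
    intro S T hS hT
    obtain ⟨aH, haH, bH, hbH, hu⟩ := UniqueProds.uniqueMul_of_nonempty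
      (hS.image f) (hT.image f)
    obtain ⟨a0, ha0, rfl⟩ := Finset.mem_image.mp haH
    obtain ⟨b0, hb0, rfl⟩ := Finset.mem_image.mp hbH
    -- translate the fibres into the kernel
    let S' : Finset f.ker := (S.filter (fun x => f x = f a0)).attach.image
      (fun x => ⟨a0⁻¹ * x.1, by
        have := (Finset.mem_filter.mp x.2).2
        rw [MonoidHom.mem_ker, map_mul, map_inv, this, inv_mul_cancel]⟩)
    let T' : Finset f.ker := (T.filter (fun x => f x = f b0)).attach.image
      (fun x => ⟨x.1 * b0⁻¹, by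
        have := (Finset.mem_filter.mp x.2).2
        rw [MonoidHom.mem_ker, map_mul, map_inv, this, mul_inv_cancel]⟩)
    have hS' : S'.Nonempty := by
      refine Finset.Nonempty.image ?_ _
      exact ⟨⟨a0, Finset.mem_filter.mpr ⟨ha0, rfl⟩⟩, Finset.mem_attach _ _⟩
    have hT' : T'.Nonempty := by
      refine Finset.Nonempty.image ?_ _
      exact ⟨⟨b0, Finset.mem_filter.mpr ⟨hb0, rfl⟩⟩, Finset.mem_attach _ _⟩
    obtain ⟨s, hs, t, ht, hst⟩ := UniqueProds.uniqueMul_of_nonempty hS' hT'
    obtain ⟨⟨a, ha⟩, _, rfl⟩ := Finset.mem_image.mp hs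
    obtain ⟨⟨b, hb⟩, _, rfl⟩ := Finset.mem_image.mp ht
    have ha' := Finset.mem_filter.mp ha
    have hb' := Finset.mem_filter.mp hb
    refine ⟨a, ha'.1, b, hb'.1, ?_⟩
    refine UniqueMul.of_image_filter (f : A →ₙ* B) ha'.2 hb'.2 hu ?_
    intro x y hx hy hxy
    have e := hst (a := ⟨a0⁻¹ * x, by
        have := (Finset.mem_filter.mp hx).2
        rw [MonoidHom.mem_ker, map_mul, map_inv]
        rw [show f x = f a0 from this, inv_mul_cancel]⟩)
      (b := ⟨y * b0⁻¹, by
        have := (Finset.mem_filter.mp hy).2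
        rw [MonoidHom.mem_ker, map_mul, map_inv]
        rw [show f y = f b0 from this, mul_inv_cancel]⟩)
      (Finset.mem_image.mpr ⟨⟨x, hx⟩, Finset.mem_attach _ _, rfl⟩)
      (Finset.mem_image.mpr ⟨⟨y, hy⟩, Finset.mem_attach _ _, rfl⟩)
      (by
        ext
        simp only [Subgroup.coe_mul]
        calc a0⁻¹ * x * (y * b0⁻¹) = a0⁻¹ * (x * y) * b0⁻¹ := by group
          _ = a0⁻¹ * (a * b) * b0⁻¹ := by rw [hxy]
          _ = a0⁻¹ * a * (b * b0⁻¹) := by group)
    have e1 := congrArg Subtype.val e.1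
    have e2 := congrArg Subtype.val e.2
    simp only [mul_right_inj, mul_left_inj] at e1 e2
    exact ⟨e1, e2⟩

end ext

section chain

variable {J : Type}

/-- The action of the free group on `F ⧸ N` by left multiplication. -/
def nact (N : Subgroup (FreeGroup J)) [N.Normal] (j : J) : Equiv.Perm (FreeGroup J ⧸ N) :=
  Equiv.mulLeft (QuotientGroup.mk' N (FreeGroup.of j))

theorem lift_nact (N : Subgroup (FreeGroup J)) [N.Normal] (x : FreeGroup J)
    (ω : FreeGroup J ⧸ N) : FreeGroup.lift (nact N) x ω = QuotientGroup.mk' N x * ω := by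
  induction x using FreeGroup.induction_on generalizing ω with
  | C1 => simp
  | of s => simp [nact]
  | inv_of s ih =>
    rw [map_inv, Equiv.Perm.inv_eq_iff_eq, FreeGroup.lift_apply_of, nact, Equiv.coe_mulLeft,
      map_inv]
    beta_reduce
    rw [mul_inv_cancel_left]
  | mul x y hx hy => rw [map_mul, Equiv.Perm.mul_apply, hy, hx, map_mul, mul_assoc]

/-- The edge vector. -/
noncomputable abbrev ev (N : Subgroup (FreeGroup J)) [N.Normal] (x : FreeGroup J)
    (ω : FreeGroup J ⧸ N) : ((FreeGroup J ⧸ N) × J) →₀ ℚ := edgeVec ℚ (nact N) x ω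

theorem ev_mul (N : Subgroup (FreeGroup J)) [N.Normal] (x y : FreeGroup J)
    (ω : FreeGroup J ⧸ N) :
    ev N (x * y) ω = ev N x (QuotientGroup.mk' N y * ω) + ev N y ω := by
  unfold ev edgeVec
  rw [hol_mul, toAdd_mul, lift_nact]

theorem ev_translate (N : Subgroup (FreeGroup J)) [N.Normal] (x : FreeGroup J)
    (ω : FreeGroup J ⧸ N) :
    ev N x ω = Finsupp.mapDomain (Prod.map (· * ω) id) (ev N x 1) := by
  have h := hol_map (nact N) (edgeConn (J := J) ℚ) (AddMonoidHom.toMultiplicative
    (Finsupp.mapDomain.addMonoidHom (M := ℚ)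
      (Prod.map (fun q : FreeGroup J ⧸ N => q * ω) (id : J → J)))) x 1
  have h2 : (fun (q : FreeGroup J ⧸ N) (s : J) => (AddMonoidHom.toMultiplicative
      (Finsupp.mapDomain.addMonoidHom (M := ℚ)
        (Prod.map (fun q : FreeGroup J ⧸ N => q * ω) (id : J → J))))
        (edgeConn (J := J) ℚ q s)) = fun q s => edgeConn (J := J) ℚ (q * ω) s := by
    funext q s
    simp [edgeConn]
  have h3 := hol_pullback (nact N) (nact N) (fun q : FreeGroup J ⧸ N => q * ω)
    (fun s q => by simp [nact, mul_assoc]) (edgeConn (J := J) ℚ) x 1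
  rw [h2, h3, one_mul] at h
  exact (congrArg Multiplicative.toAdd h).symm

/-- The next normal subgroup: the kernel of the action on the universal abelian cover. -/
noncomputable def nextN (N : Subgroup (FreeGroup J)) [N.Normal] : Subgroup (FreeGroup J) :=
  (FreeGroup.lift (skew (nact N) (edgeConn (J := J) ℚ))).ker

instance (N : Subgroup (FreeGroup J)) [N.Normal] : (nextN N).Normal := by
  unfold nextN; infer_instance

theorem mem_nextN (N : Subgroup (FreeGroup J)) [N.Normal] (x : FreeGroup J) :
    x ∈ nextN N ↔ x ∈ N ∧ ev N x 1 = 0 := by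
  unfold nextN
  rw [MonoidHom.mem_ker]
  constructor
  · intro h
    have h1 := congrArg (fun f => f ((1 : FreeGroup J ⧸ N), 1)) h
    simp only [act_apply, Equiv.Perm.coe_one, id_eq, Prod.mk.injEq, lift_nact, mul_one] at h1
    refine ⟨(QuotientGroup.eq_one_iff x).mp h1.1, ?_⟩
    unfold ev edgeVec
    rw [h1.2]; rfl
  · rintro ⟨h1, h2⟩
    ext ⟨ω, y⟩
    · rw [act_apply, lift_nact]
      have : QuotientGroup.mk' N x = 1 := (QuotientGroup.eq_one_iff x).mpr h1
      rw [this]; simp
    · rw [act_apply]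
      have h3 : ev N x ω = 0 := by rw [ev_translate, h2]; simp
      have h4 : hol (nact N) (edgeConn (J := J) ℚ) x ω = 1 := by
        apply Multiplicative.toAdd.injective
        exact h3
      rw [h4]; simp

theorem nextN_le (N : Subgroup (FreeGroup J)) [N.Normal] : nextN N ≤ N :=
  fun x hx => ((mem_nextN N x).mp hx).1

theorem uniqueProds_nextN (N : Subgroup (FreeGroup J)) [N.Normal]
    [UniqueProds (FreeGroup J ⧸ N)] : UniqueProds (FreeGroup J ⧸ nextN N) := by
  let f : (FreeGroup J ⧸ nextN N) →* (FreeGroup J ⧸ N) :=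
    QuotientGroup.map (nextN N) N (MonoidHom.id _) (by
      intro x hx; exact nextN_le N hx)
  -- the kernel embeds into a rational vector space
  let g0 : N →* Multiplicative (((FreeGroup J ⧸ N) × J) →₀ ℚ) := MonoidHom.mk'
    (fun x => Multiplicative.ofAdd (ev N x.1 1)) (by
      intro x y
      have hy : QuotientGroup.mk' N (y : FreeGroup J) = 1 := (QuotientGroup.eq_one_iff _).mpr y.2
      rw [Subgroup.coe_mul, ev_mul, hy, one_mul]; rfl)
  have hker : UniqueProds f.ker := by
    choose r hr using fun x : FreeGroup J ⧸ nextN N => QuotientGroup.mk'_surjective (nextN N) x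
    have hrN : ∀ x : f.ker, r x.1 ∈ N := by
      intro x
      have h1 := x.2
      rw [MonoidHom.mem_ker, ← hr x.1] at h1
      exact (QuotientGroup.eq_one_iff _).mp h1
    have hwd : ∀ a b : FreeGroup J, a ∈ N → b ∈ N →
        QuotientGroup.mk' (nextN N) a = QuotientGroup.mk' (nextN N) b → ev N a 1 = ev N b 1 := by
      intro a b ha hb hab
      have h1 : a * b⁻¹ ∈ nextN N := by
        rw [← QuotientGroup.eq_one_iff (N := nextN N)]
        have : QuotientGroup.mk' (nextN N) (a * b⁻¹) = 1 := by
          rw [map_mul, map_inv, hab, mul_inv_cancel]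
        exact this
      have h2 := ((mem_nextN N _).mp h1).2
      have h3 := ev_mul N (a * b⁻¹) b 1
      have hb1 : QuotientGroup.mk' N b = 1 := (QuotientGroup.eq_one_iff _).mpr hb
      rw [inv_mul_cancel_right, hb1, one_mul, h2, zero_add] at h3
      exact h3
    have hinj : ∀ a b : FreeGroup J, a ∈ N → b ∈ N → ev N a 1 = ev N b 1 →
        QuotientGroup.mk' (nextN N) a = QuotientGroup.mk' (nextN N) b := by
      intro a b ha hb hab
      have hb1 : QuotientGroup.mk' N b = 1 := (QuotientGroup.eq_one_iff _).mpr hb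
      have h3 := ev_mul N (a * b⁻¹) b 1
      rw [inv_mul_cancel_right, hb1, one_mul, hab] at h3
      have h4 : ev N (a * b⁻¹) 1 = 0 := by
        have := h3.symm
        simpa using this
      have h5 : a * b⁻¹ ∈ nextN N := (mem_nextN N _).mpr ⟨N.mul_mem ha (N.inv_mem hb), h4⟩
      have h6 : QuotientGroup.mk' (nextN N) (a * b⁻¹) = 1 := (QuotientGroup.eq_one_iff _).mpr h5
      rw [map_mul, map_inv, mul_inv_eq_one] at h6
      exact h6
    let g : f.ker →* Multiplicative (((FreeGroup J ⧸ N) × J) →₀ ℚ) := MonoidHom.mk'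
      (fun x => g0 ⟨r x.1, hrN x⟩) (by
        intro x y
        rw [← map_mul]
        apply congrArg Multiplicative.ofAdd
        apply hwd _ _ (hrN _) (N.mul_mem (hrN x) (hrN y))
        simp only [Subgroup.coe_mul, map_mul, hr])
    refine UniqueProds.of_injective_mulHom (f := g.toMulHom) ?_ inferInstance
    intro x y hxy
    have h1 : ev N (r x.1) 1 = ev N (r y.1) 1 := congrArg Multiplicative.toAdd hxy
    have h2 := hinj _ _ (hrN x) (hrN y) h1
    rw [hr, hr] at h2
    exact Subtype.ext h2
  exact uniqueProds_of_ker f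

end chain

section path

variable {J Ω : Type} (σ : J → Equiv.Perm Ω) (ω0 : Ω) (L : List (J × Bool))

/-- position after the suffix -/
def pos (i : ℕ) : Ω := FreeGroup.lift σ (FreeGroup.mk (L.drop i)) ω0

/-- edge vector of the suffix -/
noncomputable def evs (i : ℕ) : (Ω × J) →₀ ℚ := edgeVec ℚ σ (FreeGroup.mk (L.drop i)) ω0

/-- the edge passed in step `t` -/
def edg (t : ℕ) (h : t < L.length) : Ω × J :=
  (if (L[t]).2 then pos σ ω0 L (t + 1) else pos σ ω0 L t, (L[t]).1)

/-- the sign of step `t` -/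
def sg (t : ℕ) (h : t < L.length) : ℚ := if (L[t]).2 then 1 else -1

theorem mk_drop (t : ℕ) (h : t < L.length) :
    FreeGroup.mk (L.drop t) = FreeGroup.mk [L[t]] * FreeGroup.mk (L.drop (t + 1)) := by
  rw [FreeGroup.mul_mk, List.drop_eq_getElem_cons h]
  rfl

theorem pos_step (t : ℕ) (h : t < L.length) :
    (L[t].2 = true → pos σ ω0 L t = σ L[t].1 (pos σ ω0 L (t + 1))) ∧
    (L[t].2 = false → pos σ ω0 L (t + 1) = σ L[t].1 (pos σ ω0 L t)) := by
  unfold pos
  rw [mk_drop L t h]
  obtain ⟨j, b⟩ := L[t]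
  cases b
  · simp only [Bool.false_eq_true, false_implies, true_and, forall_const]
    have : FreeGroup.mk [(j, false)] = (FreeGroup.of j)⁻¹ := by
      simp [FreeGroup.of, FreeGroup.inv_mk, FreeGroup.invRev]
    rw [map_mul, Equiv.Perm.mul_apply, this, map_inv, FreeGroup.lift_apply_of]
    simp
  · simp only [forall_const, Bool.true_eq_false, false_implies, and_true]
    have : FreeGroup.mk [(j, true)] = FreeGroup.of j := rfl
    rw [map_mul, Equiv.Perm.mul_apply, this, FreeGroup.lift_apply_of]

theorem evs_step (t : ℕ) (h : t < L.length) :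
    evs σ ω0 L t = Finsupp.single (edg σ ω0 L t h) (sg L t h) + evs σ ω0 L (t + 1) := by
  have hp := pos_step σ ω0 L t h
  unfold evs edg sg edgeVec
  rw [mk_drop L t h, hol_mul, toAdd_mul]
  congr 1
  have e0 : FreeGroup.lift σ (FreeGroup.mk (L.drop (t + 1))) ω0 = pos σ ω0 L (t + 1) := rfl
  rw [e0]
  generalize L[t] = a at hp ⊢
  obtain ⟨j, b⟩ := a
  cases b
  · have : FreeGroup.mk [(j, false)] = (FreeGroup.of j)⁻¹ := by
      simp [FreeGroup.of, FreeGroup.inv_mk, FreeGroup.invRev]
    have h2 := hp.2 rfl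
    rw [this, hol_inv, hol_of, FreeGroup.lift_apply_of, h2]
    simp [edgeConn]
  · have : FreeGroup.mk [(j, true)] = FreeGroup.of j := rfl
    rw [this, hol_of]
    simp [edgeConn]

theorem evs_telescope (i d : ℕ) (h : i + d ≤ L.length) :
    evs σ ω0 L i = (∑ t : Fin d, Finsupp.single (edg σ ω0 L (i + t) (by omega))
      (sg L (i + t) (by omega))) + evs σ ω0 L (i + d) := by
  induction d with
  | zero => simp
  | succ d ih =>
    rw [Fin.sum_univ_castSucc, ih (by omega), add_assoc]
    congr 1
    simp only [Fin.val_last]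
    exact evs_step σ ω0 L (i + d) (by omega)

/-- A reduced nonempty path on which the edge vector is a function of the position is not
closed. -/
theorem no_closed_path (hred : FreeGroup.IsReduced L) (hne : L ≠ [])
    (hfun : ∀ i l, i ≤ L.length → l ≤ L.length → pos σ ω0 L i = pos σ ω0 L l →
      evs σ ω0 L i = evs σ ω0 L l)
    (hclosed : pos σ ω0 L 0 = pos σ ω0 L L.length) : False := by
  classical
  have hlen : 0 < L.length := List.length_pos_iff.mpr hne
  have hex : ∃ d, 0 < d ∧ ∃ i, i + d ≤ L.length ∧ pos σ ω0 L i = pos σ ω0 L (i + d) :=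
    ⟨L.length, hlen, 0, by omega, by simpa using hclosed⟩
  obtain ⟨hd0, i, hid, hpos⟩ := Nat.find_spec hex
  have hmin := fun d' (hd' : d' < Nat.find hex) => Nat.find_min hex hd'
  generalize Nat.find hex = d at hd0 hid hpos hmin
  obtain ⟨d, rfl⟩ : ∃ d', d = d' + 1 := ⟨d - 1, by omega⟩
  have hE := hfun i (i + (d + 1)) (by omega) hid hpos
  rw [evs_telescope σ ω0 L i (d + 1) hid] at hE
  have hsum : (∑ t : Fin (d + 1), Finsupp.single (edg σ ω0 L (i + t) (by omega))
      (sg L (i + t) (by omega))) = 0 := by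
    simpa using hE
  -- the coefficient at the last edge
  have hv : i + d < L.length := by omega
  have hcoef := congrArg (fun f => f (edg σ ω0 L (i + d) hv)) hsum
  simp only [Finsupp.coe_finsetSum, Finset.sum_apply, Finsupp.coe_zero, Pi.zero_apply] at hcoef
  rw [Fin.sum_univ_castSucc] at hcoef
  simp only [Fin.val_last, Finsupp.single_eq_same, Fin.val_castSucc] at hcoef
  have hopp : ∃ t : Fin d, edg σ ω0 L (i + t) (by omega) = edg σ ω0 L (i + d) hv ∧
      sg L (i + t) (by omega) ≠ sg L (i + d) hv := by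
    by_contra hno
    push Not at hno
    have hsg : sg L (i + d) hv = 1 ∨ sg L (i + d) hv = -1 := by
      unfold sg; split_ifs <;> simp
    have hterm : ∀ t : Fin d, (Finsupp.single (edg σ ω0 L (i + t) (by omega))
        (sg L (i + t) (by omega))) (edg σ ω0 L (i + d) hv) =
        sg L (i + d) hv * (if edg σ ω0 L (i + t) (by omega) = edg σ ω0 L (i + d) hv
          then 1 else 0) := by
      intro t
      by_cases he : edg σ ω0 L (i + t) (by omega) = edg σ ω0 L (i + d) hv
      · rw [if_pos he, he, Finsupp.single_eq_same, hno t he, mul_one]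
      · rw [if_neg he, mul_zero, Finsupp.single_eq_of_ne (Ne.symm he)]
    rw [Finset.sum_congr rfl (fun t _ => hterm t), ← Finset.mul_sum] at hcoef
    have hnn : 0 ≤ ∑ t : Fin d, (if edg σ ω0 L (i + t) (by omega) = edg σ ω0 L (i + d) hv
        then (1 : ℚ) else 0) := Finset.sum_nonneg (fun t _ => by split_ifs <;> norm_num)
    rcases hsg with h1 | h1
    · rw [h1] at hcoef; linarith
    · rw [h1] at hcoef; linarith
  obtain ⟨t, ht1, ht2⟩ := hopp
  have htd : (t : ℕ) < d := t.2
  have hu : i + (t : ℕ) < L.length := by omega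
  -- same letter, opposite sign
  have hj : L[i + (t : ℕ)].1 = L[i + d].1 := congrArg Prod.snd ht1
  have hb : L[i + (t : ℕ)].2 ≠ L[i + d].2 := by
    intro hb
    apply ht2
    unfold sg
    rw [hb]
  have hpe := congrArg Prod.fst ht1
  have hpv : pos σ ω0 L (i + (t : ℕ) + 1) = pos σ ω0 L (i + d) := by
    have hsu := pos_step σ ω0 L (i + t) hu
    have hsv := pos_step σ ω0 L (i + d) hv
    simp only [edg] at hpe
    cases hbu : L[i + (t : ℕ)].2
    · have hbv : L[i + d].2 = true := by
        cases hbv : L[i + d].2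
        · exact absurd (hbu.trans hbv.symm) hb
        · rfl
      rw [if_neg (by simp [hbu]), if_pos hbv] at hpe
      rw [hsu.2 hbu, hsv.1 hbv, hpe, hj]
    · have hbv : L[i + d].2 = false := by
        cases hbv : L[i + d].2
        · rfl
        · exact absurd (hbu.trans hbv.symm) hb
      rw [if_pos hbu, if_neg (by simp [hbv])] at hpe
      exact hpe
  by_cases hadj : (t : ℕ) + 1 = d
  · -- adjacent cancelling letters
    have hch := List.isChain_iff_getElem.mp hred (i + t) (by omega)
    have e1 : i + (t : ℕ) + 1 = i + d := by omega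
    apply hb
    have hj' : L[i + (t : ℕ)].1 = (L[i + (t : ℕ) + 1]'(by omega)).1 := by
      rw [hj]; congr 2; exact e1.symm
    have := hch hj'
    rw [this]; congr 2
  · apply hmin (d - ((t : ℕ) + 1)) (by omega)
    refine ⟨by omega, i + t + 1, by omega, ?_⟩
    rw [hpv]
    congr 1
    omega

end path

section level

variable {J : Type}

/-- The sequence of normal subgroups (the derived series of the free group). -/
noncomputable def seqN (J : Type) : ℕ → {N : Subgroup (FreeGroup J) // N.Normal}
  | 0 => ⟨⊤, inferInstance⟩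
  | k + 1 => ⟨@nextN J (seqN J k).1 (seqN J k).2, @instNormalFreeGroupNextN J (seqN J k).1 (seqN J k).2⟩

instance (k : ℕ) : (seqN J k).1.Normal := (seqN J k).2

theorem seqN_succ (k : ℕ) : (seqN J (k + 1)).1 = nextN (seqN J k).1 := rfl

instance uniqueProds_seqN (k : ℕ) : UniqueProds (FreeGroup J ⧸ (seqN J k).1) := by
  induction k with
  | zero =>
    have hs : Subsingleton (FreeGroup J ⧸ (seqN J 0).1) := by
      exact QuotientGroup.subsingleton_quotient_top
    refine ⟨fun {A B} hA hB => ?_⟩
    obtain ⟨a, ha⟩ := hA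
    obtain ⟨b, hb⟩ := hB
    exact ⟨a, ha, b, hb, UniqueMul.of_subsingleton⟩
  | succ k ih =>
    exact @uniqueProds_nextN J (seqN J k).1 (seqN J k).2 ih

theorem pos_nact (N : Subgroup (FreeGroup J)) [N.Normal] (L : List (J × Bool)) (i : ℕ) :
    QuotientGroup.mk' N (FreeGroup.mk (L.drop i)) =
      FreeGroup.lift (nact N) (FreeGroup.mk (L.drop i)) 1 := by
  rw [lift_nact, mul_one]

theorem exists_level (c : FreeGroup J) (hc : c ≠ 1) :
    ∃ k : ℕ, c ∈ (seqN J k).1 ∧ ev (seqN J k).1 c 1 ≠ 0 := by
  classical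
  by_contra hno
  push Not at hno
  have hall : ∀ k, c ∈ (seqN J k).1 := by
    intro k
    induction k with
    | zero => exact Subgroup.mem_top c
    | succ k ih =>
      rw [seqN_succ]
      exact (mem_nextN _ c).mpr ⟨ih, hno k ih⟩
  let L := c.toWord
  have hL : FreeGroup.mk L = c := FreeGroup.mk_toWord
  have hne : L ≠ [] := by
    intro h
    apply hc
    rw [← hL, h]; rfl
  let n := L.length
  let R : ℕ → Finset (Fin (n + 1) × Fin (n + 1)) := fun k => Finset.univ.filter (fun q =>
    QuotientGroup.mk' (seqN J k).1 (FreeGroup.mk (L.drop q.1)) =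
      QuotientGroup.mk' (seqN J k).1 (FreeGroup.mk (L.drop q.2)))
  have hRsub : ∀ k, R (k + 1) ⊆ R k := by
    intro k q hq
    simp only [R, Finset.mem_filter, Finset.mem_univ, true_and] at hq ⊢
    rw [QuotientGroup.mk'_apply, QuotientGroup.mk'_apply, QuotientGroup.eq] at hq ⊢
    exact nextN_le _ hq
  obtain ⟨K, hK⟩ : ∃ K, ∀ k, (R K).card ≤ (R k).card := by
    have hne' : (Set.range (fun k => (R k).card)).Nonempty := ⟨_, 0, rfl⟩
    obtain ⟨K, hK⟩ := Nat.sInf_mem hne'
    exact ⟨K, fun k => by
      have : (R K).card = sInf (Set.range (fun k => (R k).card)) := hK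
      rw [this]; exact Nat.sInf_le ⟨k, rfl⟩⟩
  have hReq : R (K + 1) = R K := Finset.eq_of_subset_of_card_le (hRsub K) (hK (K + 1))
  refine no_closed_path (nact (seqN J K).1) 1 L FreeGroup.isReduced_toWord hne ?_ ?_
  · intro i l hi hl hpos
    unfold pos at hpos
    rw [lift_nact, lift_nact, mul_one, mul_one] at hpos
    have hmem : ((⟨i, by omega⟩, ⟨l, by omega⟩) : Fin (n + 1) × Fin (n + 1)) ∈ R K := by
      simp only [R, Finset.mem_filter, Finset.mem_univ, true_and]
      exact hpos
    rw [← hReq] at hmem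
    simp only [R, Finset.mem_filter, Finset.mem_univ, true_and] at hmem
    have h1 : FreeGroup.mk (L.drop i) * (FreeGroup.mk (L.drop l))⁻¹ ∈ nextN (seqN J K).1 := by
      rw [← seqN_succ, ← QuotientGroup.eq_one_iff (N := (seqN J (K + 1)).1)]
      have : QuotientGroup.mk' (seqN J (K + 1)).1
          (FreeGroup.mk (L.drop i) * (FreeGroup.mk (L.drop l))⁻¹) = 1 := by
        rw [map_mul, map_inv, hmem, mul_inv_cancel]
      exact this
    have h2 := (mem_nextN _ _).mp h1
    have h3 := ev_mul (seqN J K).1 (FreeGroup.mk (L.drop i) * (FreeGroup.mk (L.drop l))⁻¹)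
      (FreeGroup.mk (L.drop l)) 1
    rw [inv_mul_cancel_right, ev_translate (seqN J K).1
      (FreeGroup.mk (L.drop i) * (FreeGroup.mk (L.drop l))⁻¹), h2.2, Finsupp.mapDomain_zero,
      zero_add] at h3
    exact h3
  · unfold pos
    rw [lift_nact, lift_nact, mul_one, mul_one, List.drop_zero, List.drop_length, hL]
    have : QuotientGroup.mk' (seqN J K).1 c = 1 := (QuotientGroup.eq_one_iff _).mpr (hall K)
    rw [this]
    exact (map_one _).symm

theorem linInd_translates {Q : Type} [Group Q] [UniqueProds Q] (e : (Q × J) →₀ ℚ) (he : e ≠ 0) :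
    LinearIndependent ℚ (fun ω : Q => Finsupp.mapDomain (Prod.map (· * ω) id) e) := by
  classical
  rw [linearIndependent_iff']
  intro s g hg
  by_contra hno
  push Not at hno
  obtain ⟨⟨q0, j0⟩, hq⟩ := Finsupp.ne_iff.mp he
  rw [Finsupp.zero_apply] at hq
  let T : Finset Q := s.filter (fun ω => g ω ≠ 0)
  let S : Finset Q := (e.support.filter (fun p => p.2 = j0)).image Prod.fst
  have hmemS : ∀ q, q ∈ S ↔ e (q, j0) ≠ 0 := by
    intro q
    simp only [S, Finset.mem_image, Finset.mem_filter, Finsupp.mem_support_iff]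
    constructor
    · rintro ⟨⟨a, b⟩, ⟨h1, h2⟩, h3⟩
      simp only at h2 h3
      subst h2; subst h3; exact h1
    · intro h; exact ⟨(q, j0), ⟨h, rfl⟩, rfl⟩
  have hS : S.Nonempty := ⟨q0, (hmemS q0).mpr hq⟩
  have hT : T.Nonempty := by
    obtain ⟨ω, h1, h2⟩ := hno
    exact ⟨ω, Finset.mem_filter.mpr ⟨h1, h2⟩⟩
  obtain ⟨a0, ha0, b0, hb0, hu⟩ := UniqueProds.uniqueMul_of_nonempty hS hT
  have hval : ∀ ω : Q, (Finsupp.mapDomain (Prod.map (· * ω) id) e) (a0 * b0, j0) =
      e (a0 * b0 * ω⁻¹, j0) := by
    intro ω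
    have hinj : Function.Injective (Prod.map (· * ω) (id : J → J) : Q × J → Q × J) :=
      Function.Injective.prodMap (mul_left_injective ω) Function.injective_id
    have h1 := Finsupp.mapDomain_apply hinj e (a0 * b0 * ω⁻¹, j0)
    rw [← h1]
    simp
  have h2 := congrArg (fun f => f (a0 * b0, j0)) hg
  simp only [Finsupp.coe_finsetSum, Finset.sum_apply, Finsupp.coe_zero, Pi.zero_apply,
    Finsupp.coe_smul, Pi.smul_apply, smul_eq_mul, hval] at h2
  rw [Finset.sum_eq_single b0] at h2
  · rw [mul_inv_cancel_right] at h2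
    have h3 := (hmemS a0).mp ha0
    have h4 := (Finset.mem_filter.mp hb0).2
    exact (mul_ne_zero h4 h3) h2
  · intro ω hω hne
    by_cases h5 : g ω = 0
    · rw [h5, zero_mul]
    · by_cases h6 : e (a0 * b0 * ω⁻¹, j0) = 0
      · rw [h6, mul_zero]
      · exfalso
        have h7 := hu ((hmemS _).mpr h6) (Finset.mem_filter.mpr ⟨hω, h5⟩)
          (inv_mul_cancel_right (a0 * b0) ω)
        exact hne h7.2
  · intro h; exact absurd (Finset.mem_filter.mp hb0).1 h

/-- The rows of a nontrivial word are linearly independent over a suitable free solvable group. -/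
theorem exists_cover_of_ne_one (c : FreeGroup J) (hc : c ≠ 1) :
    ∃ (Ω : Type) (_ : Nonempty Ω) (σ : J → Equiv.Perm Ω), FreeGroup.lift σ c = 1 ∧
      LinearIndependent ℚ (fun ω : Ω => edgeVec ℚ σ c ω) := by
  classical
  obtain ⟨k, hk1, hk2⟩ := exists_level c hc
  refine ⟨FreeGroup J ⧸ (seqN J k).1, ⟨1⟩, nact (seqN J k).1, ?_, ?_⟩
  · ext ω
    rw [lift_nact]
    have : QuotientGroup.mk' (seqN J k).1 c = 1 := (QuotientGroup.eq_one_iff _).mpr hk1
    rw [this]; simp
  · have h := linInd_translates (ev (seqN J k).1 c 1) hk2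
    have e : (fun ω => edgeVec ℚ (nact (seqN J k).1) c ω) =
        (fun ω => Finsupp.mapDomain (Prod.map (· * ω) id) (ev (seqN J k).1 c 1)) := by
      funext ω
      exact ev_translate _ c ω
    rw [e]; exact h

end level

end Vale.Agent.P174
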