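import Vale.Agent.P174.Cover

/-!
Stages of the tower: sets with an action of the free group on `G ⊕ J` on which the equations act
trivially, finitely many relators of the multiplication table of `G` hold at given points, and
the rows are linearly independent.
-/

namespace Vale.Agent.P174

universe u

section stage

variable {G J I : Type u} [Group G]

/-- A relator of the multiplication table. -/
def tri (g h : G) : FreeGroup (G ⊕ J) :=
  FreeGroup.of (Sum.inl g) * FreeGroup.of (Sum.inl h) * (FreeGroup.of (Sum.inl (g * h)))⁻¹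

/-- A stage. -/
structure Stage (K : Type) [Field K] (w : I → FreeGroup (G ⊕ J))
    (T : Set (FreeGroup (G ⊕ J) × G × G)) where
  Ω : Type u
  σ : (G ⊕ J) → Equiv.Perm Ω
  pt : Ω
  hI : ∀ i, FreeGroup.lift σ (w i) = 1
  hT : ∀ t ∈ T, FreeGroup.lift σ (tri t.2.1 t.2.2) (FreeGroup.lift σ t.1 pt) =
    FreeGroup.lift σ t.1 pt
  hli : LinearIndependent K (fun p : Ω × I => fox K σ (w p.2) p.1)

variable {K : Type} [Field K] {w : I → FreeGroup (G ⊕ J)}
  {T : Set (FreeGroup (G ⊕ J) × G × G)}

/-- The cover of a stage. -/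
def Stage.cover (s : Stage K w T) (α : s.Ω → (G ⊕ J) → Multiplicative K)
    (hαI : ∀ i ω, hol s.σ α (w i) ω = 1)
    (hαT : ∀ t ∈ T, hol s.σ α (tri t.2.1 t.2.2) (FreeGroup.lift s.σ t.1 s.pt) = 1) :
    Stage K w T where
  Ω := s.Ω × Multiplicative K
  σ := skew s.σ α
  pt := (s.pt, 1)
  hI i := by
    ext ⟨ω, y⟩
    · rw [act_apply, s.hI, hαI]; simp
    · rw [act_apply, s.hI, hαI]; simp
  hT t ht := by
    rw [act_apply, act_apply, s.hT t ht, hαT t ht, one_mul]
  hli := fox_cover s.σ α w s.hli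

/-- The number of different positions reached by a finite set of words. -/
noncomputable def Stage.count (s : Stage K w T) (W : Finset (FreeGroup (G ⊕ J))) : ℕ :=
  ((fun p => FreeGroup.lift s.σ p s.pt) '' (W : Set (FreeGroup (G ⊕ J)))).ncard

theorem exists_max_stage (s0 : Stage K w T) (W : Finset (FreeGroup (G ⊕ J))) :
    ∃ s : Stage K w T, ∀ s' : Stage K w T, s'.count W ≤ s.count W := by
  classical
  have hb : ∀ s : Stage K w T, s.count W ≤ W.card := fun s => by
    unfold Stage.count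
    refine (Set.ncard_image_le W.finite_toSet).trans ?_
    rw [Set.ncard_coe_finset]
  let A : Set ℕ := {n | ∃ s : Stage K w T, s.count W = n}
  have hne : A.Nonempty := ⟨_, s0, rfl⟩
  have hbdd : BddAbove A := ⟨W.card, by rintro n ⟨s, rfl⟩; exact hb s⟩
  obtain ⟨s, hs⟩ := Nat.sSup_mem hne hbdd
  exact ⟨s, fun s' => by rw [hs]; exact le_csSup hbdd ⟨s', rfl⟩⟩

theorem potential_of_max (s : Stage K w T) (W : Finset (FreeGroup (G ⊕ J)))
    (hmax : ∀ s' : Stage K w T, s'.count W ≤ s.count W)
    (α : s.Ω → (G ⊕ J) → Multiplicative K)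
    (hαI : ∀ i ω, hol s.σ α (w i) ω = 1)
    (hαT : ∀ t ∈ T, hol s.σ α (tri t.2.1 t.2.2) (FreeGroup.lift s.σ t.1 s.pt) = 1) :
    ∃ β : s.Ω → Multiplicative K, ∀ p ∈ W,
      hol s.σ α p s.pt = β (FreeGroup.lift s.σ p s.pt) := by
  classical
  have h1 := hmax (s.cover α hαI hαT)
  -- the image of the positions in the cover projects onto the positions
  let A' : Set (s.Ω × Multiplicative K) :=
    (fun p => FreeGroup.lift (skew s.σ α) p (s.pt, (1 : Multiplicative K))) ''
      (W : Set (FreeGroup (G ⊕ J)))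
  let A : Set s.Ω := (fun p => FreeGroup.lift s.σ p s.pt) '' (W : Set (FreeGroup (G ⊕ J)))
  have hA : Prod.fst '' A' = A := by
    simp only [A', A, Set.image_image]
    refine Set.image_congr (fun p _ => ?_)
    simp [act_apply]
  have h2 : A'.ncard ≤ A.ncard := h1
  have hfin : A'.Finite := W.finite_toSet.image _
  have h3 : (Prod.fst '' A').ncard = A'.ncard := by
    apply le_antisymm
    · exact Set.ncard_image_le hfin
    · rw [hA]; exact h2
  have hinj := Set.injOn_of_ncard_image_eq h3 hfin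
  refine ⟨fun ω => if h : ∃ p ∈ W, FreeGroup.lift s.σ p s.pt = ω then
    hol s.σ α h.choose s.pt else 1, ?_⟩
  intro p hp
  have hex : ∃ p' ∈ W, FreeGroup.lift s.σ p' s.pt = FreeGroup.lift s.σ p s.pt := ⟨p, hp, rfl⟩
  beta_reduce
  rw [dif_pos hex]
  obtain ⟨hpW, hpe⟩ := hex.choose_spec
  have h4 : FreeGroup.lift (skew s.σ α) hex.choose (s.pt, (1 : Multiplicative K)) ∈ A' :=
    ⟨_, Finset.mem_coe.mpr hpW, rfl⟩
  have h5 : FreeGroup.lift (skew s.σ α) p (s.pt, (1 : Multiplicative K)) ∈ A' :=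
    ⟨_, Finset.mem_coe.mpr hp, rfl⟩
  have h6 := hinj h5 h4 (by rw [act_apply, act_apply]; exact hpe.symm)
  rw [act_apply, act_apply] at h6
  simpa using congrArg Prod.snd h6

end stage

end Vale.Agent.P174
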