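import Vale.Agent.P174.Stage

/-!
The main argument: at a stage with the maximal number of positions the holonomy group of the
visited coefficient edges has no nontrivial homomorphism to `(K, +)`.
-/

namespace Vale.Agent.P174

universe u

/-- The exponent vector of an element of `G * F(J)`. -/
noncomputable def rowHom (K : Type) [Field K] (G J : Type u) [Group G] :
    Monoid.Coprod G (FreeGroup J) →* Multiplicative (J →₀ K) :=
  Monoid.Coprod.lift 1 (FreeGroup.lift (fun j => Multiplicative.ofAdd (Finsupp.single j 1)))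

/-- Every (possibly infinite) system over `G` with linearly independent exponent vectors is
solvable over `G`. -/
def HowieInf (K : Type) [Field K] (G : Type u) [Group G] : Prop :=
  ∀ (I J : Type u) (w : I → Monoid.Coprod G (FreeGroup J)),
    LinearIndependent K (fun i => (rowHom K G J (w i)).toAdd) →
    ∀ g : G, Monoid.Coprod.inl g ∈ Subgroup.normalClosure (Set.range w) → g = 1

section reach

variable {G J : Type u} [Group G]

/-- `Reach σ vis pt ω x`: there is a path of visited edges from `pt` to `ω` with label `x`. -/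
inductive Reach {Ω : Type u} (σ : (G ⊕ J) → Equiv.Perm Ω) (vis : Ω → G → Prop) (pt : Ω) :
    Ω → G → Prop
  | base : Reach σ vis pt pt 1
  | fwd {ω : Ω} {x g : G} : Reach σ vis pt ω x → vis ω g →
      Reach σ vis pt (σ (Sum.inl g) ω) (g * x)
  | bwd {ω : Ω} {x g : G} : Reach σ vis pt (σ (Sum.inl g) ω) x → vis ω g →
      Reach σ vis pt ω (g⁻¹ * x)

theorem exists_potential {Ω : Type u} (σ : (G ⊕ J) → Equiv.Perm Ω) (vis : Ω → G → Prop) (pt : Ω) :
    ∃ γ : Ω → G, γ pt = 1 ∧ ∀ ω x, Reach σ vis pt ω x → Reach σ vis pt ω (γ ω) := by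
  classical
  refine ⟨fun ω => if ω = pt then 1 else if h : ∃ x, Reach σ vis pt ω x then h.choose else 1,
    by simp, ?_⟩
  intro ω x hx
  by_cases h : ω = pt
  · subst h; simp; exact Reach.base
  · simp only [if_neg h]
    have hex : ∃ x, Reach σ vis pt ω x := ⟨x, hx⟩
    rw [dif_pos hex]
    exact hex.choose_spec

end reach

section main

variable {G J I : Type u} [Group G] {K : Type} [Field K] {w : I → FreeGroup (G ⊕ J)}

theorem exists_dual {V ι : Type*} [AddCommGroup V] [Module K V] {v : ι → V}
    (h : LinearIndependent K v) (c : ι → K) : ∃ L : V →ₗ[K] K, ∀ i, L (v i) = c i := by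
  obtain ⟨L, hL⟩ := LinearMap.exists_extend
    ((Finsupp.linearCombination K c) ∘ₗ (h.repr : Submodule.span K (Set.range v) →ₗ[K] ι →₀ K))
  refine ⟨L, fun i => ?_⟩
  have h1 := congrArg (fun f => f ⟨v i, Submodule.subset_span ⟨i, rfl⟩⟩) hL
  simp only [LinearMap.comp_apply, Submodule.subtype_apply] at h1
  rw [h1]
  rw [LinearIndependent.repr_eq_single h i _ rfl]
  simp

omit [Group G] in
/-- A function on the edges labelled by unknowns which compensates given sums. -/
theorem exists_compensate {Ω : Type u} (σ : (G ⊕ J) → Equiv.Perm Ω)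
    (hli : LinearIndependent K (fun p : Ω × I => fox K σ (w p.2) p.1))
    (α0 : Ω → G → K) :
    ∃ α : Ω → (G ⊕ J) → Multiplicative K, (∀ ω g, α ω (Sum.inl g) = Multiplicative.ofAdd (α0 ω g)) ∧
      ∀ i ω, hol σ α (w i) ω = 1 := by
  classical
  let α1 : Ω → (G ⊕ J) → Multiplicative K := fun ω s => match s with
    | Sum.inl g => Multiplicative.ofAdd (α0 ω g)
    | Sum.inr _ => 1
  obtain ⟨L, hL⟩ := exists_dual hli (fun p => - (hol σ α1 (w p.2) p.1).toAdd)
  let α2 : Ω → (G ⊕ J) → Multiplicative K := fun ω s => match s with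
    | Sum.inl _ => 1
    | Sum.inr j => Multiplicative.ofAdd (L (Finsupp.single (ω, j) 1))
  have h2 : ∀ x ω, (hol σ α2 x ω).toAdd = L (fox K σ x ω) := by
    intro x ω
    have h := hol_map σ (foxConn (G := G) (J := J) K)
      (AddMonoidHom.toMultiplicative L.toAddMonoidHom) x ω
    have h3 : (fun (ω : Ω) (s : G ⊕ J) => (AddMonoidHom.toMultiplicative L.toAddMonoidHom)
        (foxConn (G := G) (J := J) K ω s)) = α2 := by
      funext ω s
      rcases s with g | j
      · simp [foxConn, α2]
      · simp [foxConn, α2]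
    rw [h3] at h
    rw [← h]
    rfl
  refine ⟨fun ω s => α1 ω s * α2 ω s, ?_, ?_⟩
  · intro ω g; simp [α1, α2]
  · intro i ω
    have h4 : ∀ x ω, hol σ (fun ω s => α1 ω s * α2 ω s) x ω = hol σ α1 x ω * hol σ α2 x ω := by
      intro x ω
      induction x using FreeGroup.induction_on generalizing ω with
      | C1 => simp
      | of s => simp
      | inv_of s ih => rw [hol_inv, hol_inv, hol_inv, ih, mul_inv]
      | mul x y hx hy => rw [hol_mul, hol_mul, hol_mul, hx, hy, mul_mul_mul_comm]
    rw [h4]
    have h5 : (hol σ α1 (w i) ω * hol σ α2 (w i) ω).toAdd = 0 := by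
      rw [toAdd_mul, h2, hL (ω, i)]
      simp
    exact Multiplicative.toAdd.injective h5

end main

end Vale.Agent.P174
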